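import Vale.Agent.P267.H205.Ord1

/-!
# P267, block G, package G-ORD (helper406): from the order to `Chain O`

`chain_of`: the factorisation data `F : Fact O` of helper205, an enumeration `e` of the classes
for which every `I b` is an interval directly below `b`, and the intersection statements give
`Chain O`.
-/

set_option linter.unusedVariables false
set_option linter.unusedSectionVars false

open scoped Manifold ContDiff ComplexConjugate Matrix Topology
open Set Filter
open Vale.Agent.P272.K (Cm)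
open Vale.Agent.P267.FL Vale.Agent.P267.H158 Vale.Agent.P267.XT Vale.Agent.P267.H338
open Vale.Agent.P267.H757 Vale.Agent.P267.LineX Vale.Agent.P267.H781

noncomputable section

namespace Vale.Agent.P267.H406

open Vale.Agent.P267.H205

variable {X : Type} [TopologicalSpace X] [ChartedSpace C2 X] [IsManifold 𝓘(ℂ, C2) ω X] {n : ℕ}

section enum

variable {e : Fin n × ℤ ≃ ℤ}

theorem enum_eq (he : ∀ i k, e (i, k + 1) = e (i, k) + n) (i : Fin n) (k : ℤ) :
    e (i, k) = e (i, 0) + n * k := by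
  induction k using Int.induction_on with
  | zero => simp
  | succ m ih => rw [he, ih]; ring
  | pred m ih =>
    have h := he i (-(m : ℤ) - 1)
    rw [sub_add_cancel, ih] at h
    linarith

theorem enum_symm_add (he : ∀ i k, e (i, k + 1) = e (i, k) + n) (l : ℤ) :
    e.symm (l + n) = ((e.symm l).1, (e.symm l).2 + 1) := by
  rw [Equiv.symm_apply_eq, he, Prod.mk.eta, Equiv.apply_symm_apply]

/-- the number of orbits -/
theorem orbits {m : ℕ} (hm : 1 ≤ m) (h : ∀ i k, e (i, k + 1) = e (i, k) + m) : m = n := by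
  have h1 : ∀ (i : Fin n) (k : ℤ), e (i, k) = e (i, 0) + m * k := by
    intro i k
    induction k using Int.induction_on with
    | zero => simp
    | succ p ih => rw [h, ih]; ring
    | pred p ih =>
      have h := h i (-(p : ℤ) - 1)
      rw [sub_add_cancel, ih] at h
      linarith
  have : NeZero m := ⟨by omega⟩
  let g : Fin n → ZMod m := fun i => (e (i, 0) : ZMod m)
  have hg : Function.Bijective g := by
    constructor
    · intro i j hij
      have h2 : ((e (i, 0) : ℤ) : ZMod m) = ((e (j, 0) : ℤ) : ZMod m) := hij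
      rw [ZMod.intCast_eq_intCast_iff_dvd_sub] at h2
      obtain ⟨c, hc⟩ := h2
      have h3 : e (i, c) = e (j, 0) := by
        rw [h1 i c, ← hc]
        ring
      exact congrArg Prod.fst (e.injective h3)
    · intro z
      obtain ⟨a, rfl⟩ := ZMod.intCast_surjective z
      have h2 : e ((e.symm a).1, (e.symm a).2) = a := by
        rw [Prod.mk.eta, Equiv.apply_symm_apply]
      refine ⟨(e.symm a).1, ?_⟩
      show ((e ((e.symm a).1, 0) : ℤ) : ZMod m) = (a : ZMod m)
      conv_rhs => rw [← h2, h1 (e.symm a).1 (e.symm a).2]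
      push_cast
      simp
  have h2 := Fintype.card_of_bijective hg
  rw [Fintype.card_fin, ZMod.card] at h2
  exact h2.symm

end enum

section chain

variable {O : BlockOut X n} (F : H205.Fact O) {e : Fin n × ℤ ≃ ℤ} {s : ℤ → ℕ}

include F

theorem div_enum (hI : ∀ b j, j ∈ F.I b ↔ e b - s (e b) ≤ e j ∧ e j ≤ e b - 1) (l : ℤ)
    (x : Cov O.B.hh) : O.N (e.symm l) x = F.Nc (e.symm l) x *
      ∏ j ∈ Finset.Ico (l - (s l : ℤ)) l, O.N (e.symm j) x := by
  rw [F.fact]
  congr 1
  have h1 : F.I (e.symm l) = (Finset.Ico (l - (s l : ℤ)) l).map e.symm.toEmbedding := by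
    ext j
    rw [hI, Finset.mem_map, Equiv.apply_symm_apply]
    constructor
    · rintro ⟨h1, h2⟩
      exact ⟨e j, Finset.mem_Ico.2 ⟨h1, by linarith⟩, by simp⟩
    · rintro ⟨y, hy, rfl⟩
      rw [Finset.mem_Ico] at hy
      have h3 : e (e.symm.toEmbedding y) = y := e.apply_symm_apply y
      rw [h3]
      exact ⟨hy.1, by linarith [hy.2]⟩
  rw [h1, Finset.prod_map]
  rfl

theorem exists_low_enum (he : ∀ i k, e (i, k + 1) = e (i, k) + n) (x : Cov O.B.hh) :
    ∃ m : ℤ, ∀ l, O.N (e.symm l) x = 0 → m ≤ l := by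
  obtain ⟨R, hR, h1⟩ := exists_height O
  obtain ⟨B, hB⟩ : ∃ B : ℤ, ∀ i : Fin n, -B ≤ e (i, 0) := by
    refine ⟨∑ i : Fin n, |e (i, 0)|, fun i => ?_⟩
    have h2 : |e (i, 0)| ≤ ∑ i : Fin n, |e (i, 0)| :=
      Finset.single_le_sum (f := fun i : Fin n => |e (i, 0)|) (fun j _ => abs_nonneg _)
        (Finset.mem_univ i)
    have h3 := neg_abs_le (e (i, 0))
    linarith
  refine ⟨-B + n * ⌊O.B.D.f x - R⌋, fun l hl => ?_⟩
  have h2 := h1 _ _ hl
  have h3 : ⌊O.B.D.f x - R⌋ ≤ (e.symm l).2 := by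
    have h4 : (⌊O.B.D.f x - R⌋ : ℝ) ≤ O.B.D.f x - R := Int.floor_le _
    have h5 : (⌊O.B.D.f x - R⌋ : ℝ) < (e.symm l).2 := by linarith
    have h6 : ⌊O.B.D.f x - R⌋ < (e.symm l).2 := by exact_mod_cast h5
    exact h6.le
  have h4 := enum_eq he (e.symm l).1 (e.symm l).2
  rw [Prod.mk.eta, Equiv.apply_symm_apply] at h4
  have h5 : (n : ℤ) * ⌊O.B.D.f x - R⌋ ≤ n * (e.symm l).2 :=
    mul_le_mul_of_nonneg_left h3 (Int.natCast_nonneg n)
  have h6 := hB (e.symm l).1
  linarith

theorem zero_enum (he : ∀ i k, e (i, k + 1) = e (i, k) + n)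
    (hI : ∀ b j, j ∈ F.I b ↔ e b - s (e b) ≤ e j ∧ e j ≤ e b - 1)
    (hD : ∀ b i, Desc F.I b i ↔ e i ≤ e b) (l : ℤ) (x : Cov O.B.hh) :
    O.N (e.symm l) x = 0 ↔ ∃ j ≤ l, x ∈ (F.C (e.symm j)).image := by
  constructor
  · obtain ⟨m, hm⟩ := exists_low_enum F he x
    have key : ∀ t : ℕ, ∀ l : ℤ, l ≤ m + t → O.N (e.symm l) x = 0 →
        ∃ j ≤ l, x ∈ (F.C (e.symm j)).image := by
      intro t
      induction t with
      | zero =>
        intro l hl h0
        rcases (F.zero_iff _ _).1 h0 with h1 | ⟨j, hj, h1⟩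
        · exact ⟨l, le_rfl, h1⟩
        · exfalso
          have h2 := (hI _ _).1 hj
          rw [Equiv.apply_symm_apply] at h2
          have h3 := hm (e j) (by rwa [Equiv.symm_apply_apply])
          push_cast at hl
          linarith [h2.2]
      | succ t ih =>
        intro l hl h0
        rcases (F.zero_iff _ _).1 h0 with h1 | ⟨j, hj, h1⟩
        · exact ⟨l, le_rfl, h1⟩
        · have h2 := (hI _ _).1 hj
          rw [Equiv.apply_symm_apply] at h2
          push_cast at hl
          obtain ⟨k, hk, hxk⟩ := ih (e j) (by linarith [h2.2]) (by rwa [Equiv.symm_apply_apply])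
          exact ⟨k, by linarith [h2.2], hxk⟩
    intro h0
    exact key (l - m).toNat l (by
      have := Int.self_le_toNat (l - m)
      linarith) h0
  · rintro ⟨j, hj, hx⟩
    refine F.zero_of_desc ((hD _ _).2 ?_) (F.zero_of_mem hx)
    rw [Equiv.apply_symm_apply, Equiv.apply_symm_apply]
    exact hj

theorem image_shift (i : Fin n) (k : ℤ) :
    (F.C (i, k + 1)).image = O.B.D.sh 1 '' (F.C (i, k)).image := by
  rw [F.C_shift i (k + 1), F.C_shift i k, image_image]
  refine image_congr fun x _ => ?_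
  rw [← O.B.D.sh_add]
  congr 1
  ring

/-- **Packaging.** -/
theorem chain_of (F : H205.Fact O) (e : Fin n × ℤ ≃ ℤ) (s : ℤ → ℕ)
    (he : ∀ i k, e (i, k + 1) = e (i, k) + n) (hs : ∀ l, 1 ≤ s l) (hper : ∀ l, s (l + n) = s l)
    (hI : ∀ b j, j ∈ F.I b ↔ e b - s (e b) ≤ e j ∧ e j ≤ e b - 1)
    (hD : ∀ b i, Desc F.I b i ↔ e i ≤ e b)
    (hw : ∀ l j, l - s l + 2 ≤ j → j ≤ l - 1 → s j = 1)
    (hdisj : ∀ l j, j < l → j ≠ l - s l →
      Disjoint (F.C (e.symm l)).image (F.C (e.symm j)).image)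
    (hnode : ∀ l, ∃ p, (F.C (e.symm l)).image ∩ (F.C (e.symm (l - s l))).image = {p})
    (htransv : ∀ l p, p ∈ (F.C (e.symm l)).image → p ∈ (F.C (e.symm (l - s l))).image →
      ∀ U g φ U' g' φ', p ∈ U → p ∈ U' → LocRep C2 (F.Nc (e.symm l)) U g φ →
        LocRep C2 (F.Nc (e.symm (l - s l))) U' g' φ' →
        LinearIndependent ℂ ![mfderiv 𝓘(ℂ, C2) 𝓘(ℂ) g p, mfderiv 𝓘(ℂ, C2) 𝓘(ℂ) g' p]) :
    Nonempty (Chain O) :=
  ⟨{ ord := e
     ord_shift := he
     s := s
     s_pos := hs
     s_per := hper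
     word := hw
     C := fun l => F.C (e.symm l)
     C_shift := fun l => by
       show (F.C (e.symm (l + n))).image = O.B.D.sh 1 '' (F.C (e.symm l)).image
       rw [enum_symm_add he, image_shift F]
     Nc := fun l => F.Nc (e.symm l)
     Nc_norm := fun l => F.Nc_norm _
     Nc_zero := fun l => F.Nc_zero _
     Nc_red := fun l => F.Nc_red _
     Nc_in := fun l => F.Nc_in _
     div := fun l x => div_enum F hI l x
     zero := fun l x => zero_enum F he hI hD l x
     disj := hdisj
     node := hnode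
     transv := htransv }⟩

end chain

end Vale.Agent.P267.H406
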