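import Vale.Agent.P267.H205.Ord1
import Vale.Agent.P267.H995.Deg
import Vale.Agent.P267.H823.PL10

/-!
# P267, block G, package G-ORD (helper406): intersection numbers of the curves `C b`

From the degrees `deg (E_c | C_b) = [c ∈ I b] - [c = b]`:
* `key`: the degree on `C b` of the bundle of `C b'`, `b ≠ b'`, is
  `[b' ∈ I b] + [b ∈ I b'] - |I b ∩ I b'|`;
* `hpos`: it is `≥ 0`;
* `meet`: `C b` meets `C j` for some `j ∈ I b`.
-/

set_option linter.unusedVariables false
set_option linter.unusedSectionVars false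

open scoped Manifold ContDiff ComplexConjugate Matrix Topology
open Set Filter MeasureTheory
open Vale.Agent.P272.K (Cm)
open Vale.Agent.P267.FL Vale.Agent.P267.H158 Vale.Agent.P267.XT Vale.Agent.P267.H338
open Vale.Agent.P267.H757 Vale.Agent.P267.LineX Vale.Agent.P267.H781
open Vale.Agent.P267.H332 (cF cF_smooth cF_mul)
open Vale.Agent.P267.H205.P1 (degOn holSec_pull integral_pbC_curv)
open Vale.Agent.P267.H823.PL (pbC pbC_add integrable_pbC)

noncomputable section

namespace Vale.Agent.P267.H406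

open Vale.Agent.P267.H205

variable {X : Type} [TopologicalSpace X] [T2Space X] [CompactSpace X] [ChartedSpace C2 X]
  [IsManifold 𝓘(ℂ, C2) ω X] {n : ℕ} {O : BlockOut X n}

section integrals

variable (φ : EmbP1 (Cov O.B.hh))

/-- the integral of the curvature of a norm function over a curve -/
def dg (N : Cov O.B.hh → ℝ) : ℂ := ∫ t, pbC φ.f₀ (cF N) t

theorem dg_mul {N N' : Cov O.B.hh → ℝ} (h : IsNormFn C2 N) (h' : IsNormFn C2 N') :
    dg φ (fun x => N x * N' x) = dg φ N + dg φ N' := by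
  unfold dg
  rw [H995.cF_mul' h h']
  simp only [pbC_add]
  exact integral_add (integrable_pbC φ.toP1Map (cF_smooth h))
    (integrable_pbC φ.toP1Map (cF_smooth h'))

theorem dg_one : dg φ (fun _ => 1) = 0 := by
  unfold dg
  rw [H995.cF_one]
  have h1 : ∀ t, pbC φ.f₀ (0 : TwoF (Cov O.B.hh)) t = 0 := by
    intro t
    have h2 := pbC_add φ.f₀ (0 : TwoF (Cov O.B.hh)) 0 t
    rw [add_zero] at h2
    exact left_eq_add.1 h2
  simp only [h1]
  exact integral_zero _ _

theorem dg_prod {β : Type*} (I : Finset β) {N : β → Cov O.B.hh → ℝ}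
    (hN : ∀ j, IsNormFn C2 (N j)) : dg φ (fun x => ∏ j ∈ I, N j x) = ∑ j ∈ I, dg φ (N j) := by
  classical
  induction I using Finset.induction_on with
  | empty =>
    simp only [Finset.prod_empty, Finset.sum_empty]
    exact dg_one φ
  | insert a s ha ih =>
    have h1 : (fun x => ∏ j ∈ insert a s, N j x) = fun x => N a x * ∏ j ∈ s, N j x := by
      funext x
      rw [Finset.prod_insert ha]
    rw [h1, Finset.sum_insert ha, ← ih, dg_mul φ (hN a) (isNormFn_prod s fun i _ => hN i)]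

theorem dg_N (c : Fin n × ℤ) : dg φ (O.N c) =
    Real.pi * ((degOn (O.bL c) (H995.reg_ba O c) φ.toP1Map : ℤ) : ℂ) := by
  unfold dg
  rw [H995.cF_N O c, (H823.PL.integral_chern φ.toP1Map (O.bL c) (H995.reg_ba O c)).2,
    (integral_pbC_curv (O.bL c) (H995.reg_ba O c) φ.toP1Map).2]

theorem dg_MB (A : H206.MB O) {Nc : Cov O.B.hh → ℝ} (hN : IsNormFn C2 Nc)
    (hA : ∀ x, Nc x = ‖A.α x‖ ^ 2) :
    dg φ Nc = Real.pi * ((degOn A.L.L A.ends.hol.smooth φ.toP1Map : ℤ) : ℂ) := by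
  have hd : Dense {x | A.α x ≠ 0} := by
    refine hN.dense_ne_zero.mono ?_
    intro x (hx : Nc x ≠ 0) (h0 : A.α x = 0)
    apply hx
    rw [hA, h0, norm_zero]
    norm_num
  have h1 := (H466.lbnf A.ends.hol A.mon.reg A.mon.sec A.mon.hol hd).2
  have h2 : Nc = fun x => ‖A.α x‖ ^ 2 := funext hA
  unfold dg
  rw [h2, h1, (H823.PL.integral_chern φ.toP1Map A.L.L A.ends.hol.smooth).2,
    (integral_pbC_curv A.L.L A.ends.hol.smooth φ.toP1Map).2]

end integrals

variable (F : H205.Fact O)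

/-- **the intersection number of `C b` and `C b'`.** -/
theorem key (hdeg : ∀ b c, degOn (O.bL c) (H995.reg_ba O c) (F.C b).toP1Map =
      (if c ∈ F.I b then 1 else 0) - (if c = b then 1 else 0)) {b b' : Fin n × ℤ} (hne : b ≠ b')
    (A : H206.MB O) (hA : ∀ x, F.Nc b' x = ‖A.α x‖ ^ 2) :
    degOn A.L.L A.ends.hol.smooth (F.C b).toP1Map =
      (if b' ∈ F.I b then 1 else 0) + (if b ∈ F.I b' then 1 else 0) -
        ((F.I b ∩ F.I b').card : ℤ) := by
  classical
  have hprod : IsNormFn C2 (fun x => ∏ j ∈ F.I b', O.N j x) :=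
    isNormFn_prod (F.I b') fun i _ => H995.isNormFn_N O i
  have h1 : dg (F.C b) (O.N b') = dg (F.C b) (F.Nc b') + ∑ j ∈ F.I b', dg (F.C b) (O.N j) := by
    rw [← dg_prod (F.C b) (F.I b') fun j => H995.isNormFn_N O j,
      ← dg_mul (F.C b) (F.Nc_norm b') hprod]
    congr 1
    funext x
    exact F.fact b' x
  rw [dg_MB (F.C b) A (F.Nc_norm b') hA, dg_N] at h1
  simp only [dg_N] at h1
  rw [← Finset.mul_sum, ← mul_add] at h1
  have hpi : (Real.pi : ℂ) ≠ 0 := Complex.ofReal_ne_zero.2 Real.pi_ne_zero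
  have h2 := mul_left_cancel₀ hpi h1
  have h3 : degOn (O.bL b') (H995.reg_ba O b') (F.C b).toP1Map =
      degOn A.L.L A.ends.hol.smooth (F.C b).toP1Map +
        ∑ j ∈ F.I b', degOn (O.bL j) (H995.reg_ba O j) (F.C b).toP1Map := by
    exact_mod_cast h2
  simp only [hdeg, Finset.sum_sub_distrib] at h3
  have h4 : ∑ j ∈ F.I b', (if j ∈ F.I b then (1 : ℤ) else 0) = ((F.I b ∩ F.I b').card : ℤ) := by
    rw [Finset.sum_boole, Finset.inter_comm]
    congr 2
  have h5 : ∑ j ∈ F.I b', (if j = b then (1 : ℤ) else 0) = if b ∈ F.I b' then 1 else 0 := by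
    rw [Finset.sum_ite_eq']
  rw [h4, h5, if_neg (Ne.symm hne)] at h3
  linarith

/-- **`C b . C b' ≥ 0`.** -/
theorem hpos (hdeg : ∀ b c, degOn (O.bL c) (H995.reg_ba O c) (F.C b).toP1Map =
      (if c ∈ F.I b then 1 else 0) - (if c = b then 1 else 0))
    (hdis : ∀ b b', b ≠ b' → ¬ (F.C b).image ⊆ (F.C b').image) (b b' : Fin n × ℤ)
    (hne : b ≠ b') : (F.I b ∩ F.I b').card ≤
      (if b' ∈ F.I b then 1 else 0) + (if b ∈ F.I b' then 1 else 0) := by
  classical
  obtain ⟨A, hA⟩ := F.bun b'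
  have h1 := key F hdeg hne A hA
  have hs := holSec_pull A.L.L A.ends.hol.smooth (F.C b).toP1Map A.mon.reg A.mon.sec A.mon.hol
  have hex : ∃ z, A.α ((F.C b).f₀ z) ≠ 0 := by
    by_contra hcon
    push Not at hcon
    apply hdis b b' hne
    have hcon1 := hs.eq_zero hcon
    intro x hx
    rw [← F.Nc_zero, hA]
    rcases hx with ⟨z, rfl⟩ | rfl
    · rw [hcon z, norm_zero]; norm_num
    · rw [hcon1 0, norm_zero]; norm_num
  have h2 : 0 ≤ degOn A.L.L A.ends.hol.smooth (F.C b).toP1Map := hs.deg_nonneg hex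
  rw [h1] at h2
  have h3 : ((F.I b ∩ F.I b').card : ℤ) ≤
      (if b' ∈ F.I b then 1 else 0) + (if b ∈ F.I b' then 1 else 0) := by linarith
  split_ifs at h3 ⊢ <;> omega

/-- a minimal element of `I b` -/
theorem exists_sink (b : Fin n × ℤ) : ∃ j ∈ F.I b, Disjoint (F.I b) (F.I j) := by
  classical
  obtain ⟨j, hj, hmin⟩ := Finset.exists_min_image (F.I b)
    (fun j => ((F.I b).filter fun k => Desc F.I j k).card) (F.nonempty_I b)
  refine ⟨j, hj, Finset.disjoint_left.2 fun k hk hkj => ?_⟩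
  have h1 := hmin k hk
  have h2 : ((F.I b).filter fun i => Desc F.I k i) ⊂ ((F.I b).filter fun i => Desc F.I j i) := by
    refine Finset.ssubset_iff_subset_ne.2 ⟨fun i hi => ?_, fun heq => ?_⟩
    · rw [Finset.mem_filter] at hi ⊢
      exact ⟨hi.1, (Desc.of_mem hkj).trans hi.2⟩
    · have h3 : j ∈ (F.I b).filter fun i => Desc F.I j i :=
        Finset.mem_filter.2 ⟨hj, Desc.refl j⟩
      rw [← heq, Finset.mem_filter] at h3
      exact F.acyclic hkj h3.2
  exact absurd (Finset.card_lt_card h2) (not_lt.2 h1)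

/-- **`C b` meets some `C j`, `j ∈ I b`.** -/
theorem meet (hdeg : ∀ b c, degOn (O.bL c) (H995.reg_ba O c) (F.C b).toP1Map =
      (if c ∈ F.I b then 1 else 0) - (if c = b then 1 else 0))
    (b : Fin n × ℤ) : ∃ j ∈ F.I b, ((F.C b).image ∩ (F.C j).image).Nonempty := by
  classical
  obtain ⟨j, hj, hdisj⟩ := exists_sink F b
  refine ⟨j, hj, ?_⟩
  obtain ⟨A, hA⟩ := F.bun j
  have hne : b ≠ j := by
    rintro rfl
    exact F.acyclic hj (Desc.refl b)
  have h1 := key F hdeg hne A hA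
  have h2 : b ∉ F.I j := fun h => F.acyclic hj (Desc.of_mem h)
  rw [if_pos hj, if_neg h2, Finset.disjoint_iff_inter_eq_empty.1 hdisj, Finset.card_empty] at h1
  have hs := holSec_pull A.L.L A.ends.hol.smooth (F.C b).toP1Map A.mon.reg A.mon.sec A.mon.hol
  have h3 : degOn A.L.L A.ends.hol.smooth (F.C b).toP1Map ≠ 0 := by
    rw [h1]; norm_num
  rcases hs.exists_zero h3 with ⟨z, hz⟩ | hz
  · refine ⟨(F.C b).f₀ z, (F.C b).mem_image_f₀ z, ?_⟩
    rw [← F.Nc_zero, hA, hz, norm_zero]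
    norm_num
  · refine ⟨(F.C b).f₁ 0, (F.C b).mem_image_f₁ 0, ?_⟩
    rw [← F.Nc_zero, hA, hz, norm_zero]
    norm_num

end Vale.Agent.P267.H406
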