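import Vale.Agent.P267.H406.Fns
import Vale.Agent.P267.H209.Reach

/-!
# P267, GS-ROOT-IN (helper406): exact functions near `⋃ j ≤ i, C j` and the inner end

`ExFn Ch i m`: a holomorphic function on a neighbourhood `U` of `⋃ k ≤ i, C k` and of the inner end
with `‖x‖² = N_{i+1}^m w`, `w > 0`.

`exists_exFn`: it exists for some `i` and some `m ≥ 1`.
* CASE A, `i ∉ I_l` for all `l ≥ i + 2`: `x = F_l` for `l` large, `m` = multiplicity.
* CASE B, every `j` is `l - s l` for some `l > j`: downward induction, `m = 1`.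
-/

set_option linter.unusedSectionVars false
set_option linter.unusedVariables false

open scoped Manifold ContDiff Topology Matrix
open Set Filter

noncomputable section

namespace Vale.Agent.P267.H406

open Vale.Agent.P267.FL Vale.Agent.P267.H466 Vale.Agent.P267.H188 Vale.Agent.P267.XT
open Vale.Agent.P267.H158 Vale.Agent.P267.LineX Vale.Agent.P267.H706 Vale.Agent.P267.H338
open Vale.Agent.P267.H757

variable {X : Type} [TopologicalSpace X] [ChartedSpace C2 X] [IsManifold 𝓘(ℂ, C2) ω X] {n : ℕ}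
  {O : BlockOut X n} (Ch : Chain O)

/-- the norm function of the `l`-th section -/
abbrev NN (l : ℤ) : Cov O.B.hh → ℝ := O.N (Ch.ord.symm l)

theorem NN_continuous (l : ℤ) : Continuous (NN Ch l) := continuous_N O _

theorem NN_nonneg (l : ℤ) (x : Cov O.B.hh) : 0 ≤ NN Ch l x := sq_nonneg _

theorem NN_dense (l : ℤ) : Dense {x | NN Ch l x ≠ 0} := by
  have h := (hsec O (Ch.ord.symm l)).dense
  refine h.mono fun x hx => ?_
  exact pow_ne_zero 2 (norm_ne_zero_iff.2 hx)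

theorem Nc_nonneg (l : ℤ) (x : Cov O.B.hh) : 0 ≤ Ch.Nc l x := (Ch.Nc_norm l).nonneg x

theorem Nc_pos {l : ℤ} {x : Cov O.B.hh} (hx : x ∉ (Ch.C l).image) : 0 < Ch.Nc l x :=
  lt_of_le_of_ne (Nc_nonneg Ch l x) fun h => hx ((Ch.Nc_zero l x).1 h.symm)

theorem inB_Nc (l : ℤ) : InB O.B.D.f (Ch.Nc l) := by
  obtain ⟨K, hK, h⟩ := Ch.Nc_in l
  exact ⟨K, -K, hK, h⟩

/-- finitely many sections do not vanish simultaneously on an open dense set -/
theorem dense_prod (S : Finset ℤ) :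
    IsOpen {x | ∀ k ∈ S, NN Ch k x ≠ 0} ∧ Dense {x | ∀ k ∈ S, NN Ch k x ≠ 0} := by
  classical
  induction S using Finset.induction_on with
  | empty => simp
  | insert a S ha ih =>
    have h1 : {x | ∀ k ∈ insert a S, NN Ch k x ≠ 0} =
        {x | NN Ch a x ≠ 0} ∩ {x | ∀ k ∈ S, NN Ch k x ≠ 0} := by
      ext x
      simp
    have h2 : IsOpen {x | NN Ch a x ≠ 0} := isOpen_ne_fun (NN_continuous Ch a) continuous_const
    rw [h1]
    exact ⟨h2.inter ih.1, (NN_dense Ch a).inter_of_isOpen_left ih.2 h2⟩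

/-! ### levels -/

theorem ord_eq (j : Fin n) (k : ℤ) : Ch.ord (j, k) = Ch.ord (j, 0) + n * k := by
  induction k using Int.induction_on with
  | zero => simp
  | succ i ih => rw [Ch.ord_shift, ih]; ring
  | pred i ih =>
    have h := Ch.ord_shift j (-(i : ℤ) - 1)
    rw [sub_add_cancel, ih] at h
    linarith

theorem exists_lev : ∃ B : ℤ, ∀ l : ℤ, l ≤ n * (Ch.ord.symm l).2 + B := by
  refine ⟨∑ j : Fin n, |Ch.ord (j, 0)|, fun l => ?_⟩
  have h1 := ord_eq Ch (Ch.ord.symm l).1 (Ch.ord.symm l).2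
  rw [Prod.mk.eta, Equiv.apply_symm_apply] at h1
  have h2 : |Ch.ord ((Ch.ord.symm l).1, 0)| ≤ ∑ j : Fin n, |Ch.ord (j, 0)| :=
    Finset.single_le_sum (f := fun j => |Ch.ord (j, 0)|) (fun j _ => abs_nonneg _)
      (Finset.mem_univ _)
  have h3 := le_abs_self (Ch.ord ((Ch.ord.symm l).1, 0))
  linarith

/-- the curves `C j`, `j ≤ i`, are bounded outward -/
theorem exists_top (i : ℤ) : ∃ T : ℝ, ∀ j ≤ i, ∀ x ∈ (Ch.C j).image, O.B.D.f x ≤ T := by
  obtain ⟨A, hA, h⟩ := Ch.f_bound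
  have hn : (0 : ℝ) < n := by exact_mod_cast Ch.n_pos
  refine ⟨(i : ℝ) / n + A, fun j hj x hx => ?_⟩
  have h1 := (abs_le.1 (h j x hx)).2
  have h2 : (j : ℝ) / n ≤ (i : ℝ) / n := by
    gcongr
  linarith

/-- the curves `C j`, `j ≥ i`, are bounded inward -/
theorem exists_bot (i : ℤ) : ∃ T : ℝ, ∀ j ≥ i, ∀ x ∈ (Ch.C j).image, T ≤ O.B.D.f x := by
  obtain ⟨A, hA, h⟩ := Ch.f_bound
  have hn : (0 : ℝ) < n := by exact_mod_cast Ch.n_pos
  refine ⟨(i : ℝ) / n - A, fun j hj x hx => ?_⟩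
  have h1 := (abs_le.1 (h j x hx)).1
  have h2 : (i : ℝ) / n ≤ (j : ℝ) / n := by
    gcongr
  linarith

theorem exists_low (R : ℝ) : ∃ j₀ : ℤ, ∀ j ≤ j₀, ∀ x ∈ (Ch.C j).image, O.B.D.f x < R := by
  obtain ⟨A, hA, h⟩ := Ch.f_bound
  have hn : (0 : ℝ) < n := by exact_mod_cast Ch.n_pos
  refine ⟨⌊(R - A) * n⌋ - 1, fun j hj x hx => ?_⟩
  have h1 := (abs_le.1 (h j x hx)).2
  have h2 : (j : ℝ) < (R - A) * n := by
    have h3 : (j : ℝ) ≤ (⌊(R - A) * n⌋ : ℝ) - 1 := by exact_mod_cast hj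
    have h4 := Int.floor_le ((R - A) * n)
    linarith
  have h3 : (j : ℝ) / n < R - A := by rwa [div_lt_iff₀ hn]
  linarith

/-! ### exact functions -/

/-- an exact function with divisor `m D_j` near `⋃ k ≤ i, C k` and the inner end -/
def ExFn (i j : ℤ) (m : ℕ) : Prop :=
  ∃ (U : Set (Cov O.B.hh)) (x : Cov O.B.hh → ℂ) (w : Cov O.B.hh → ℝ), IsOpen U ∧
    (∃ R, ∀ p, O.B.D.f p ≤ R → p ∈ U) ∧ (∀ k ≤ i, (Ch.C k).image ⊆ U) ∧
    (∀ p ∈ U, HolAt 0 x p) ∧ ContinuousOn w U ∧ (∀ p ∈ U, 0 < w p) ∧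
    (∀ p ∈ U, ‖x p‖ ^ 2 = NN Ch j p ^ m * w p) ∧ InB O.B.D.f w

theorem exFn_large (hE : ExactFrames O) (i : ℤ) : ∃ L : ℤ, ∀ l ≥ L, ExFn Ch i l 1 := by
  obtain ⟨R, hR, h⟩ := exists_exact O hE
  obtain ⟨B, hB⟩ := exists_lev Ch
  obtain ⟨T, hT⟩ := exists_top Ch i
  have hn : (0 : ℝ) < n := by exact_mod_cast Ch.n_pos
  have hfc : Continuous O.B.D.f := continuous_f O.B.D
  refine ⟨⌈n * (T + R + 1) + B⌉, fun l hl => ?_⟩
  obtain ⟨g, F, w, -, hF, -, hw, hw0, hwB, hFN⟩ := h (Ch.ord.symm l)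
  refine ⟨{p | O.B.D.f p < (Ch.ord.symm l).2 - R}, F, w, isOpen_lt hfc continuous_const,
    ⟨(Ch.ord.symm l).2 - R - 1, fun p hp => ?_⟩, fun k hk p hp => ?_, hF, hw.continuousOn,
    fun p _ => hw0 p, fun p hp => ?_, hwB⟩
  · show O.B.D.f p < _
    linarith
  · show O.B.D.f p < _
    have h1 := hT k hk p hp
    have h2 : (n * (T + R + 1) + B : ℝ) ≤ l := Int.ceil_le.1 hl
    have h3 : (l : ℝ) ≤ n * (Ch.ord.symm l).2 + B := by exact_mod_cast hB l
    have h4 : (n : ℝ) * (T + R + 1) ≤ n * (Ch.ord.symm l).2 := by linarith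
    have h5 := le_of_mul_le_mul_left h4 hn
    linarith
  · rw [pow_one]
    exact hFN p hp

theorem div_Ioo (l : ℤ) (x : Cov O.B.hh) : NN Ch l x =
    Ch.Nc l x * (NN Ch (l - Ch.s l) x * ∏ k ∈ Finset.Ioo (l - (Ch.s l : ℤ)) l, NN Ch k x) := by
  have h := Ch.div l x
  have h1 : (1 : ℤ) ≤ Ch.s l := by exact_mod_cast Ch.s_pos l
  rw [← Finset.Ioo_insert_left (by linarith : l - (Ch.s l : ℤ) < l),
    Finset.prod_insert (by simp)] at h
  exact h

/-- one step downward -/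
theorem exFn_step [T2Space X] {i l : ℤ} (hl : i + 2 ≤ l) (hb : i + 1 ≤ l - Ch.s l)
    (h : ∀ k, l - Ch.s l < k → k ≤ l → ExFn Ch i k 1) : ExFn Ch i (l - Ch.s l) 1 := by
  classical
  have hs1 : (1 : ℤ) ≤ Ch.s l := by exact_mod_cast Ch.s_pos l
  have h' : ∀ k, k ∈ Finset.Ioc (l - (Ch.s l : ℤ)) l → ExFn Ch i k 1 := fun k hk =>
    h k (Finset.mem_Ioc.1 hk).1 (Finset.mem_Ioc.1 hk).2
  unfold ExFn at h'
  choose! U x w hU hUi hUC hx hw hw0 heq hB using h'
  set J := Finset.Ioo (l - (Ch.s l : ℤ)) l with hJ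
  set I := Finset.Ioc (l - (Ch.s l : ℤ)) l with hI
  have hJI : ∀ k ∈ J, k ∈ I := fun k hk =>
    Finset.mem_Ioc.2 ⟨(Finset.mem_Ioo.1 hk).1, (Finset.mem_Ioo.1 hk).2.le⟩
  have hlI : l ∈ I := Finset.mem_Ioc.2 ⟨by linarith, le_rfl⟩
  set V : Set (Cov O.B.hh) := (⋂ k ∈ I, U k) ∩ (Ch.C l).imageᶜ with hV
  have hVo : IsOpen V :=
    (isOpen_biInter_finset fun k hk => hU k hk).inter (Ch.C l).isClosed_image.isOpen_compl
  have hVU : ∀ k ∈ I, V ⊆ U k := fun k hk p hp => mem_iInter₂.1 hp.1 k hk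
  -- the new weight
  set w' : Cov O.B.hh → ℝ := fun p => Ch.Nc l p * w l p * ∏ k ∈ J, (w k p)⁻¹ with hw'
  have hw'c : ContinuousOn w' V := by
    refine (((Ch.Nc_norm l).continuous.continuousOn).mul ((hw l hlI).mono (hVU l hlI))).mul ?_
    refine continuousOn_finsetProd J fun k hk => ?_
    exact ((hw k (hJI k hk)).mono (hVU k (hJI k hk))).inv₀ fun p hp =>
      (hw0 k (hJI k hk) p (hVU k (hJI k hk) hp)).ne'
  have hw'0 : ∀ p ∈ V, 0 < w' p := by
    intro p hp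
    refine mul_pos (mul_pos (Nc_pos Ch hp.2) (hw0 l hlI p (hVU l hlI hp))) ?_
    exact Finset.prod_pos fun k hk => inv_pos.2 (hw0 k (hJI k hk) p (hVU k (hJI k hk) hp))
  have hw'B : InB O.B.D.f w' :=
    ((inB_Nc Ch l).mul (hB l hlI)).mul (InB.prod J fun k hk => (hB k (hJI k hk)).inv)
  have hnz : NZ (fun p => ∏ k ∈ J, x k p) V := by
    intro p hp
    have h1 := mem_closure_iff_frequently.1 ((dense_prod Ch J).2 p)
    refine (h1.and_eventually (hVo.mem_nhds hp)).mono ?_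
    rintro q ⟨hq, hqV⟩
    refine Finset.prod_ne_zero_iff.2 fun k hk h0 => ?_
    have h2 := heq k (hJI k hk) q (hVU k (hJI k hk) hqV)
    rw [h0, norm_zero, pow_one] at h2
    have h3 : NN Ch k q * w k q ≠ 0 :=
      mul_ne_zero (hq k hk) (hw0 k (hJI k hk) q (hVU k (hJI k hk) hqV)).ne'
    exact h3 (by rw [← h2]; norm_num)
  obtain ⟨q, hq, -, hqn⟩ := exists_quot (g := x l) (h := fun p => ∏ k ∈ J, x k p)
    (ν := fun p => NN Ch (l - Ch.s l) p * w' p) hVo (fun p hp => hx l hlI p (hVU l hlI hp))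
    (fun p hp => holAt_prod J fun k hk => hx k (hJI k hk) p (hVU k (hJI k hk) hp)) hnz
    ((NN_continuous Ch _).continuousOn.mul hw'c) (by
      intro p hp
      rw [heq l hlI p (hVU l hlI hp), pow_one, norm_prod, ← Finset.prod_pow]
      have h1 : ∏ k ∈ J, ‖x k p‖ ^ 2 = (∏ k ∈ J, NN Ch k p) * ∏ k ∈ J, w k p := by
        rw [← Finset.prod_mul_distrib]
        refine Finset.prod_congr rfl fun k hk => ?_
        rw [heq k (hJI k hk) p (hVU k (hJI k hk) hp), pow_one]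
      have h2 : (∏ k ∈ J, w k p) * ∏ k ∈ J, (w k p)⁻¹ = 1 := by
        rw [← Finset.prod_mul_distrib]
        refine Finset.prod_eq_one fun k hk => ?_
        exact mul_inv_cancel₀ (hw0 k (hJI k hk) p (hVU k (hJI k hk) hp)).ne'
      rw [h1, hw', div_Ioo Ch l p]
      linear_combination (-(Ch.Nc l p * (NN Ch (l - Ch.s l) p * ∏ k ∈ J, NN Ch k p) * w l p)) * h2)
  obtain ⟨T, hT⟩ := exists_bot Ch l
  refine ⟨V, q, w', hVo, ?_, ?_, hq, hw'c, hw'0, fun p hp => by rw [pow_one]; exact hqn p hp, hw'B⟩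
  · -- the inner end
    have h1 : ∀ S : Finset ℤ, (∀ k ∈ S, k ∈ I) → ∃ R, ∀ p, O.B.D.f p ≤ R → ∀ k ∈ S, p ∈ U k := by
      intro S
      induction S using Finset.induction_on with
      | empty => exact fun _ => ⟨0, fun p _ k hk => by simp at hk⟩
      | insert a S ha ih =>
        intro hS
        obtain ⟨R, hR⟩ := ih fun k hk => hS k (Finset.mem_insert_of_mem hk)
        obtain ⟨R', hR'⟩ := hUi a (hS a (Finset.mem_insert_self a S))
        refine ⟨min R R', fun p hp k hk => ?_⟩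
        rcases Finset.mem_insert.1 hk with rfl | hk
        · exact hR' p (hp.trans (min_le_right _ _))
        · exact hR p (hp.trans (min_le_left _ _)) k hk
    obtain ⟨R, hR⟩ := h1 I fun k hk => hk
    refine ⟨min R (T - 1), fun p hp => ⟨?_, fun hpC => ?_⟩⟩
    · exact mem_iInter₂.2 fun k hk => hR p (hp.trans (min_le_left _ _)) k hk
    · have h2 := hT l le_rfl p hpC
      have h3 := hp.trans (min_le_right _ _)
      linarith
  · intro k hk p hp
    refine ⟨mem_iInter₂.2 fun j hj => hUC j hj k hk hp, fun hpC => ?_⟩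
    have h2 := Ch.disj l k (by linarith) (by linarith)
    exact (Set.disjoint_left.1 h2) hpC hp

/-- CASE B -/
theorem exFn_B [T2Space X] (hE : ExactFrames O) (hB : ∀ j : ℤ, ∃ l, j < l ∧ l - Ch.s l = j) (i : ℤ) :
    ∀ j, i + 1 ≤ j → ExFn Ch i j 1 := by
  obtain ⟨L, hL⟩ := exFn_large Ch hE i
  have key : ∀ t : ℕ, ∀ j, i + 1 ≤ j → L - t ≤ j → ExFn Ch i j 1 := by
    intro t
    induction t with
    | zero => exact fun j _ hj => hL j (by simpa using hj)
    | succ t ih =>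
      intro j hj hjt
      obtain ⟨l, hjl, hls⟩ := hB j
      have h1 := exFn_step Ch (i := i) (l := l) (by linarith) (by rw [hls]; exact hj)
        (fun k hk _ => ih k (by rw [hls] at hk; linarith) (by
          rw [hls] at hk; push_cast at hjt ⊢; linarith))
      rwa [hls] at h1
  intro j hj
  obtain ⟨t, ht⟩ : ∃ t : ℕ, L - t ≤ j := ⟨(L - j).toNat, by
    have := Int.self_le_toNat (L - j); linarith⟩
  exact key t j hj ht

/-- multiplicities, CASE A -/
theorem mult_A {i : ℤ} (hA : ∀ l, i + 2 ≤ l → i + 1 ≤ l - Ch.s l) :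
    ∀ l, i + 1 ≤ l → ∃ (m : ℕ) (G : Cov O.B.hh → ℝ), 0 < m ∧ Continuous G ∧
      (∀ x, NN Ch l x = NN Ch (i + 1) x ^ m * G x) ∧
      (∀ x, (∀ k, i + 2 ≤ k → k ≤ l → x ∉ (Ch.C k).image) → 0 < G x) ∧ InB O.B.D.f G := by
  classical
  have key : ∀ t : ℕ, ∀ l, i + 1 ≤ l → l ≤ i + 1 + t → ∃ (m : ℕ) (G : Cov O.B.hh → ℝ), 0 < m ∧
      Continuous G ∧ (∀ x, NN Ch l x = NN Ch (i + 1) x ^ m * G x) ∧
      (∀ x, (∀ k, i + 2 ≤ k → k ≤ l → x ∉ (Ch.C k).image) → 0 < G x) ∧ InB O.B.D.f G := by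
    intro t
    induction t with
    | zero =>
      intro l h1 h2
      have h3 : l = i + 1 := by push_cast at h2; linarith
      subst h3
      exact ⟨1, fun _ => 1, one_pos, continuous_const, fun x => by simp, fun x _ => one_pos,
        InB.one⟩
    | succ t ih =>
      intro l h1 h2
      rcases eq_or_lt_of_le h1 with h3 | h3
      · subst h3
        exact ⟨1, fun _ => 1, one_pos, continuous_const, fun x => by simp, fun x _ => one_pos,
          InB.one⟩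
      have hl : i + 2 ≤ l := by linarith
      have hs := hA l hl
      have hs1 : (1 : ℤ) ≤ Ch.s l := by exact_mod_cast Ch.s_pos l
      set I := Finset.Ico (l - (Ch.s l : ℤ)) l with hI
      have ih' : ∀ k, k ∈ I → ∃ (m : ℕ) (G : Cov O.B.hh → ℝ), 0 < m ∧
          Continuous G ∧ (∀ x, NN Ch k x = NN Ch (i + 1) x ^ m * G x) ∧
          (∀ x, (∀ j, i + 2 ≤ j → j ≤ k → x ∉ (Ch.C j).image) → 0 < G x) ∧ InB O.B.D.f G := by
        intro k hk
        have hk' := Finset.mem_Ico.1 hk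
        exact ih k (by linarith) (by push_cast at h2; linarith)
      choose! m G hm hG heq hpos hB using ih'
      have hne : I.Nonempty := ⟨l - 1, Finset.mem_Ico.2 ⟨by linarith, by linarith⟩⟩
      refine ⟨∑ k ∈ I, m k, fun x => Ch.Nc l x * ∏ k ∈ I, G k x, ?_, ?_, ?_, ?_, ?_⟩
      · exact Finset.sum_pos hm hne
      · exact (Ch.Nc_norm l).continuous.mul (continuous_finsetProd I fun k hk => hG k hk)
      · intro x
        show O.N (Ch.ord.symm l) x = _
        rw [Ch.div l x, ← Finset.prod_pow_eq_pow_sum]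
        have h4 : ∏ j ∈ Finset.Ico (l - (Ch.s l : ℤ)) l, O.N (Ch.ord.symm j) x =
            (∏ k ∈ I, NN Ch (i + 1) x ^ m k) * ∏ k ∈ I, G k x := by
          rw [← Finset.prod_mul_distrib]
          exact Finset.prod_congr rfl fun k hk => heq k hk x
        rw [h4]
        ring
      · intro x hx
        refine mul_pos (Nc_pos Ch (hx l hl le_rfl)) (Finset.prod_pos fun k hk => ?_)
        exact hpos k hk x fun j h5 h6 => hx j h5 (h6.trans (Finset.mem_Ico.1 hk).2.le)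
      · exact (inB_Nc Ch l).mul (InB.prod I fun k hk => hB k hk)
  intro l hl
  exact key (l - (i + 1)).toNat l hl (by
    have := Int.self_le_toNat (l - (i + 1)); linarith)

/-- CASE A -/
theorem exFn_A [T2Space X] (hE : ExactFrames O) {i : ℤ}
    (hA : ∀ l, i + 2 ≤ l → i + 1 ≤ l - Ch.s l) : ∃ m : ℕ, 0 < m ∧ ExFn Ch i (i + 1) m := by
  obtain ⟨L, hL⟩ := exFn_large Ch hE i
  obtain ⟨U, x, w, hU, ⟨R, hR⟩, hUC, hx, hw, hw0, heq, hwB⟩ := hL (max L (i + 1)) (le_max_left _ _)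
  set l := max L (i + 1) with hl
  obtain ⟨m, G, hm, hG, hGe, hG0, hGB⟩ := mult_A Ch hA l (le_max_right _ _)
  refine ⟨m, hm, ?_⟩
  obtain ⟨T, hT⟩ := exists_bot Ch (i + 2)
  set Z : Set (Cov O.B.hh) := ⋃ j ∈ Ici (i + 2), (Ch.C j).image with hZ
  have hZc : IsClosed Z := Ch.isClosed_union _
  have hZ' : ∀ p ∉ Z, ∀ k, i + 2 ≤ k → k ≤ l → p ∉ (Ch.C k).image := by
    intro p hp k hk _ hpk
    exact hp (mem_iUnion₂.2 ⟨k, hk, hpk⟩)
  refine ⟨U \ Z, x, fun p => G p * w p, hU.sdiff hZc, ⟨min R (T - 1), fun p hp => ⟨?_, ?_⟩⟩,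
    fun k hk p hp => ⟨hUC k hk hp, ?_⟩, fun p hp => hx p hp.1, ?_, ?_, ?_, hGB.mul hwB⟩
  · exact hR p (hp.trans (min_le_left _ _))
  · intro hpZ
    obtain ⟨j, hj, hpj⟩ := mem_iUnion₂.1 hpZ
    have h1 := hT j hj p hpj
    have h2 := hp.trans (min_le_right _ _)
    linarith
  · intro hpZ
    obtain ⟨j, hj, hpj⟩ := mem_iUnion₂.1 hpZ
    have hj' : i + 2 ≤ j := hj
    have h1 := hA j hj'
    exact (Set.disjoint_left.1 (Ch.disj j k (by linarith) (by linarith))) hpj hp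
  · exact hG.continuousOn.mul (hw.mono sdiff_subset)
  · exact fun p hp => mul_pos (hG0 p (hZ' p hp.2)) (hw0 p hp.1)
  · intro p hp
    rw [heq p hp.1, pow_one, hGe p]
    ring

/-- **an exact function exists.** -/
theorem exists_exFn [T2Space X] (hE : ExactFrames O) :
    ∃ (i : ℤ) (m : ℕ), 0 < m ∧ ExFn Ch i (i + 1) m := by
  by_cases hA : ∃ i : ℤ, ∀ l, i + 2 ≤ l → i + 1 ≤ l - Ch.s l
  · obtain ⟨i, hA⟩ := hA
    exact ⟨i, exFn_A Ch hE hA⟩
  · push Not at hA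
    have hB : ∀ j : ℤ, ∃ l, j < l ∧ l - Ch.s l = j := by
      intro j
      by_cases h1 : Ch.s (j + 1) = 1
      · exact ⟨j + 1, by linarith, by rw [h1]; push_cast; ring⟩
      · obtain ⟨l, hl, hls⟩ := hA j
        refine ⟨l, by linarith, ?_⟩
        by_contra hne
        have h2 : l - Ch.s l < j := lt_of_le_of_ne (by linarith) hne
        exact h1 (Ch.word l (j + 1) (by linarith) (by linarith))
    exact ⟨0, 1, one_pos, exFn_B Ch hE hB 0 _ le_rfl⟩

end Vale.Agent.P267.H406
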