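import Vale.Agent.P267.H406.Norm
import Vale.Agent.P267.H457.Chain
import Vale.Agent.P267.H706.Lim

/-!
# P267, GS-ROOT-IN (helper406): exact functions

`O : BlockOut X n`.  `hsec O b : HSec (O.bL b) (O.ba b) (O.bα b)`.
`frameAt_exp`: `e^{-ψ} e_{i₀}` is a holomorphic frame where `P = E_{i₀ i₀}` and `∂̄ψ = a`.
`exists_exact`: for an exact frame family, the function `F = (α_b)_{i₀} e^{ψ}` is holomorphic on
`{f < k - R}`, `α_b = F • (e^{-ψ} e_{i₀})`, `‖F‖² = N_b w`, `w` positive, bounded above and below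
at the inner end.
-/

set_option linter.unusedSectionVars false
set_option linter.unusedVariables false

open scoped Manifold ContDiff Topology Matrix
open Set Filter

noncomputable section

namespace Vale.Agent.P267.H406

open Vale.Agent.P267.FL Vale.Agent.P267.H466 Vale.Agent.P267.H188 Vale.Agent.P267.XT
open Vale.Agent.P267.H158 Vale.Agent.P267.LineX Vale.Agent.P267.H706

/-! ### positive functions which are bounded above and below at the inner end -/

/-- `w` is bounded above and below by positive constants for `f ≤ R` -/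
def InB {M : Type*} (f w : M → ℝ) : Prop :=
  ∃ K R : ℝ, 0 < K ∧ ∀ x, f x ≤ R → K⁻¹ ≤ w x ∧ w x ≤ K

section InB

variable {M : Type*} {f w v : M → ℝ}

theorem InB.mul (hw : InB f w) (hv : InB f v) : InB f fun x => w x * v x := by
  obtain ⟨K, R, hK, h⟩ := hw
  obtain ⟨K', R', hK', h'⟩ := hv
  refine ⟨K * K', min R R', mul_pos hK hK', fun x hx => ?_⟩
  obtain ⟨h1, h2⟩ := h x (hx.trans (min_le_left _ _))
  obtain ⟨h3, h4⟩ := h' x (hx.trans (min_le_right _ _))
  have h5 : 0 < K⁻¹ := inv_pos.2 hK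
  have h6 : 0 < K'⁻¹ := inv_pos.2 hK'
  constructor
  · rw [mul_inv]
    exact mul_le_mul h1 h3 h6.le (h5.le.trans h1)
  · exact mul_le_mul h2 h4 (h6.le.trans h3) hK.le

theorem InB.inv (hw : InB f w) : InB f fun x => (w x)⁻¹ := by
  obtain ⟨K, R, hK, h⟩ := hw
  refine ⟨K, R, hK, fun x hx => ?_⟩
  obtain ⟨h1, h2⟩ := h x hx
  have h5 : 0 < K⁻¹ := inv_pos.2 hK
  have h6 : 0 < w x := h5.trans_le h1
  refine ⟨inv_anti₀ h6 h2, ?_⟩
  rw [← inv_inv K]
  exact inv_anti₀ h5 h1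

theorem InB.one : InB f fun _ => 1 := ⟨1, 0, one_pos, fun x _ => by simp⟩

theorem InB.pow (hw : InB f w) (n : ℕ) : InB f fun x => w x ^ n := by
  induction n with
  | zero => simpa using InB.one
  | succ n ih => simpa only [pow_succ] using ih.mul hw

theorem InB.prod {ι : Type*} (S : Finset ι) {w : ι → M → ℝ} (h : ∀ i ∈ S, InB f (w i)) :
    InB f fun x => ∏ i ∈ S, w i x := by
  classical
  induction S using Finset.induction_on with
  | empty => simpa using InB.one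
  | insert a S ha ih =>
    simp only [Finset.prod_insert ha]
    exact (h a (Finset.mem_insert_self a S)).mul
      (ih fun i hi => h i (Finset.mem_insert_of_mem hi))

theorem InB.congr (hw : InB f w) {R : ℝ} (h : ∀ x, f x ≤ R → v x = w x) : InB f v := by
  obtain ⟨K, R', hK, h'⟩ := hw
  refine ⟨K, min R R', hK, fun x hx => ?_⟩
  rw [h x (hx.trans (min_le_left _ _))]
  exact h' x (hx.trans (min_le_right _ _))

end InB

section frame

variable {X : Type} [TopologicalSpace X] [ChartedSpace C2 X] [IsManifold 𝓘(ℂ, C2) ω X]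
variable {ι : Type} [Fintype ι] [DecidableEq ι] {L : LB X ι} {a : X → Fin 2 → ℂ}
  {α : X → EuclideanSpace ℂ ι}

theorem frameAt_exp {i₀ : ι} {ψ : X → ℂ} {U : Set X} (hU : IsOpen U)
    (hP : ∀ x ∈ U, L.P x = Matrix.single i₀ i₀ 1) (hψ : Reg0 ∞ 0 ψ)
    (hd : ∀ x ∈ U, ∀ j, dbar0 0 ψ x j = a x j) {p : X} (hp : p ∈ U) :
    FrameAt L a (fun y => Complex.exp (-ψ y) • (eb i₀ : EuclideanSpace ℂ ι)) p := by
  filter_upwards [hU.mem_nhds hp] with y hy
  have h1 : At0 ∞ 0 ψ y := hψ.at y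
  have h2 : At0 ∞ 0 (fun y => Complex.exp (-ψ y)) y := h1.neg.cexp
  have h3 : LB.act (L.P y) (eb i₀ : EuclideanSpace ℂ ι) = eb i₀ := by
    rw [hP y hy]
    have := act_smul_eb i₀ (1 : ℂ)
    simpa using this
  refine ⟨h2.smul at0_const, ?_, ?_, ?_⟩
  · rw [LB.act_smul, h3]
  · refine smul_ne_zero (Complex.exp_ne_zero _) fun h0 => ?_
    have := norm_eb i₀
    rw [h0, norm_zero] at this
    exact zero_ne_one this
  · funext i
    rw [LB.db0_smul (h2.of_le (by simp)) at0_const h3]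
    have h4 : L.db0 a 0 (fun _ => (eb i₀ : EuclideanSpace ℂ ι)) y i = a y i • eb i₀ := by
      rw [LB.db0, FL.dbar0_const]
      simp [act_zero']
    have h5 : dbar0 0 (fun y => Complex.exp (-ψ y)) y i = -(Complex.exp (-ψ y) * a y i) := by
      rw [dbar0_cexp (h1.neg.of_le (by simp)), dbar0_neg (h1.of_le (by simp))]
      simp [hd y hy i]
    rw [h4, h5, neg_smul, ← smul_smul]
    simp
where
  act_zero' : ∀ y, LB.act (L.P y) (0 : EuclideanSpace ℂ ι) = 0 := by
    intro y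
    ext i
    simp [LB.act]

theorem sec_eq_exp {i₀ : ι} {ψ : X → ℂ} (hα : L.Sec α) {x : X}
    (hP : L.P x = Matrix.single i₀ i₀ 1) :
    α x = (α x i₀ * Complex.exp (ψ x)) • (Complex.exp (-ψ x) • (eb i₀ : EuclideanSpace ℂ ι)) := by
  have h1 := hα x
  rw [hP, act_single] at h1
  rw [smul_smul, mul_assoc, ← Complex.exp_add, add_neg_cancel, Complex.exp_zero, mul_one]
  exact h1.symm

end frame

variable {X : Type} [TopologicalSpace X] [ChartedSpace C2 X] [IsManifold 𝓘(ℂ, C2) ω X] {n : ℕ}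

theorem hsec (O : BlockOut X n) (b : Fin n × ℤ) : HSec (O.bL b) (O.ba b) (O.bα b) where
  hol := (O.B.D.chartMap_sh (-b.2)).lb_isHol (O.cone b.1).hol
  reg := (O.B.D.chartMap_sh (-b.2)).reg0_comp (O.cone b.1).α_reg
  sec := (O.B.D.chartMap_sh (-b.2)).lb_sec (O.cone b.1).α_sec
  db x i := by
    have h := congrFun ((O.B.D.chartMap_sh (-b.2)).lb_db0 (O.E b.1).L (O.a b.1) 0 (O.α b.1) x) i
    exact h.trans ((O.cone b.1).α_hol _ i)
  dense := by
    have h := (O.cone b.1).α_dense.preimage (O.B.D.γ ^ (-b.2)).isOpenMap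
    exact h

theorem continuous_N (O : BlockOut X n) (b : Fin n × ℤ) : Continuous (O.N b) :=
  ((hsec O b).reg.continuous.norm).pow 2

/-- exact functions -/
theorem exists_exact (O : BlockOut X n) (hE : ExactFrames O) : ∃ R : ℝ, 0 ≤ R ∧
    ∀ b : Fin n × ℤ, ∃ (g : Cov O.B.hh → EuclideanSpace ℂ (O.E b.1).ι) (F : Cov O.B.hh → ℂ)
      (w : Cov O.B.hh → ℝ),
      (∀ x, O.B.D.f x < b.2 - R → FrameAt (O.bL b) (O.ba b) g x) ∧
      (∀ x, O.B.D.f x < b.2 - R → HolAt 0 F x) ∧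
      (∀ x, O.B.D.f x < b.2 - R → O.bα b x = F x • g x) ∧
      Continuous w ∧ (∀ x, 0 < w x) ∧ InB O.B.D.f w ∧
      ∀ x, O.B.D.f x < b.2 - R → ‖F x‖ ^ 2 = O.N b x * w x := by
  obtain ⟨R₀, c, K, hc, hE⟩ := hE
  have hfin : ∃ R : ℝ, 0 ≤ R ∧ R₀ ≤ R ∧ ∀ i, O.Rc i ≤ R := by
    refine ⟨max (max 0 R₀) (∑ i, |O.Rc i|), (le_max_left _ _).trans (le_max_left _ _),
      (le_max_right _ _).trans (le_max_left _ _), fun i => ?_⟩
    refine le_trans ?_ (le_max_right _ _)
    exact (le_abs_self _).trans (Finset.single_le_sum (f := fun i => |O.Rc i|)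
      (fun j _ => abs_nonneg _) (Finset.mem_univ i))
  obtain ⟨R, hR0, hR1, hR2⟩ := hfin
  refine ⟨R, hR0, fun b => ?_⟩
  obtain ⟨ψ, hψ, hψd, hψb⟩ := hE b.1
  set D := O.B.D with hD
  set U : Set (Cov O.B.hh) := {x | D.f x < b.2 - R} with hU
  have hfc : Continuous D.f := continuous_f D
  have hUo : IsOpen U := isOpen_lt hfc continuous_const
  set Ψ : Cov O.B.hh → ℂ := fun x => ψ (D.sh (-b.2) x) with hΨ
  have hΨr : Reg0 ∞ 0 Ψ := (D.chartMap_sh (-b.2)).reg0_comp hψ
  have hf : ∀ x, D.f (D.sh (-b.2) x) = D.f x - b.2 := by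
    intro x
    rw [D.f_sh]
    push_cast
    ring
  have hP : ∀ x ∈ U, (O.bL b).P x = Matrix.single (O.i₀ b.1) (O.i₀ b.1) 1 := by
    intro x hx
    refine (O.cone b.1).triv (D.sh (-b.2) x) ?_
    have h1 : D.f x < b.2 - R := hx
    have h2 := hR2 b.1
    rw [hf, abs_of_nonpos (by linarith)]
    linarith
  have hd : ∀ x ∈ U, ∀ j, dbar0 0 Ψ x j = O.ba b x j := by
    intro x hx j
    rw [hΨ, (D.chartMap_sh (-b.2)).dbar0_comp]
    refine hψd _ ?_ j
    have h1 : D.f x < b.2 - R := hx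
    rw [hf]
    linarith
  have hfr : ∀ x ∈ U, FrameAt (O.bL b) (O.ba b)
      (fun y => Complex.exp (-Ψ y) • (eb (O.i₀ b.1) : EuclideanSpace ℂ (O.E b.1).ι)) x :=
    fun x hx => frameAt_exp hUo hP hΨr hd hx
  have hs := hsec O b
  have hcoef : ∀ x ∈ U, O.bα b x = (O.bα b x (O.i₀ b.1) * Complex.exp (Ψ x)) •
      (Complex.exp (-Ψ x) • (eb (O.i₀ b.1) : EuclideanSpace ℂ (O.E b.1).ι)) :=
    fun x hx => sec_eq_exp hs.sec (hP x hx)
  refine ⟨fun y => Complex.exp (-Ψ y) • (eb (O.i₀ b.1) : EuclideanSpace ℂ (O.E b.1).ι),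
    fun x => O.bα b x (O.i₀ b.1) * Complex.exp (Ψ x),
    fun x => Real.exp (2 * (Ψ x).re), hfr, ?_, hcoef, ?_, fun x => Real.exp_pos _, ?_, ?_⟩
  · intro x hx
    have h1 : HolAt 0 (cof (fun y => Complex.exp (-Ψ y) • (eb (O.i₀ b.1) :
        EuclideanSpace ℂ (O.E b.1).ι)) (O.bα b)) x := by
      refine (hfr x hx).cof_holAt (Eventually.of_forall fun y => ⟨hs.reg.at y, hs.sec y, ?_⟩)
      funext i
      exact hs.db y i
    refine h1.congr ?_
    filter_upwards [hUo.mem_nhds hx] with y hy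
    exact (cof_eq (f := fun y => Complex.exp (-Ψ y) • (eb (O.i₀ b.1) :
      EuclideanSpace ℂ (O.E b.1).ι)) (s := O.bα b) (y := y) (hfr y hy).ne (hcoef y hy)).symm
  · exact Real.continuous_exp.comp (continuous_const.mul
      (Complex.continuous_re.comp hΨr.continuous))
  · refine ⟨Real.exp (2 * |K|), min 0 (b.2 : ℝ), Real.exp_pos _, fun x hx => ?_⟩
    have h1 : D.f x ≤ b.2 := hx.trans (min_le_right _ _)
    have h2 : ‖Ψ x‖ ≤ |K| := by
      have h3 : D.f (D.sh (-b.2) x) ≤ 0 := by rw [hf]; linarith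
      refine (hψb _ h3).trans ?_
      have h4 : Real.exp (c * D.f (D.sh (-b.2) x)) ≤ 1 := by
        rw [Real.exp_le_one_iff]
        nlinarith
      calc K * Real.exp (c * D.f (D.sh (-b.2) x)) ≤ |K| * Real.exp (c * D.f (D.sh (-b.2) x)) :=
            mul_le_mul_of_nonneg_right (le_abs_self K) (Real.exp_pos _).le
        _ ≤ |K| * 1 := mul_le_mul_of_nonneg_left h4 (abs_nonneg K)
        _ = |K| := mul_one _
    have h3 := (Complex.abs_re_le_norm (Ψ x)).trans h2
    rw [abs_le] at h3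
    constructor
    · rw [← Real.exp_neg]
      exact Real.exp_le_exp.2 (by linarith)
    · exact Real.exp_le_exp.2 (by linarith)
  · intro x hx
    have h1 := hcoef x hx
    have h2 : O.N b x = ‖O.bα b x‖ ^ 2 := rfl
    have h3 : ‖O.bα b x‖ = ‖O.bα b x (O.i₀ b.1) * Complex.exp (Ψ x)‖ *
        Real.exp (-(Ψ x).re) := by
      conv_lhs => rw [h1]
      rw [norm_smul, norm_smul, norm_eb, mul_one, Complex.norm_exp, Complex.neg_re]
    rw [h2, h3, mul_pow, mul_assoc, ← Real.exp_nat_mul, ← Real.exp_add]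
    have : ((2 : ℕ) : ℝ) * -(Ψ x).re + 2 * (Ψ x).re = 0 := by push_cast; ring
    rw [this, Real.exp_zero, mul_one]

end Vale.Agent.P267.H406
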