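import Vale.Agent.P267.H406.Root
import Vale.Agent.P267.H739.Geo
import Vale.Agent.P267.H331.Reparam

/-!
# P267, endgame route S (helper406): the geometric input `H739.Geo`

`exists_geo`: from `Chain O` and `ExactFrames O`, the structure `H739.Geo` for the classes `i + 1`
and `i`, for some `i`.
-/

set_option linter.unusedSectionVars false
set_option linter.unusedVariables false

open scoped Manifold ContDiff Topology Matrix
open Set Filter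

noncomputable section

namespace Vale.Agent.P267.H406

open Vale.Agent.P267.FL Vale.Agent.P267.H466 Vale.Agent.P267.H188 Vale.Agent.P267.XT
open Vale.Agent.P267.H158 Vale.Agent.P267.LineX Vale.Agent.P267.H706 Vale.Agent.P267.H338
open Vale.Agent.P267.H757 Vale.Agent.P267.H209

section deriv

variable {M : Type} [TopologicalSpace M] [ChartedSpace C2 M] [IsManifold 𝓘(ℂ, C2) ω M]

/-- `x = q g` near a zero of `g`, `q ≠ 0`: the differential of `x` does not vanish where the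
differential of `g` does not vanish -/
theorem mfderiv_ne_of_mul {x q g : M → ℂ} {p : M} (hq : HolAt 0 q p) (hg : HolAt 0 g p)
    (heq : ∀ᶠ y in 𝓝 p, x y = q y * g y) (hq0 : q p ≠ 0) (hg0 : g p = 0)
    (hd : mfderiv 𝓘(ℂ, C2) 𝓘(ℂ) g p ≠ 0) : mfderiv 𝓘(ℂ, C2) 𝓘(ℂ) x p ≠ 0 := by
  have h1 : HasMFDerivAt 𝓘(ℂ, C2) 𝓘(ℂ) q p (mfderiv 𝓘(ℂ, C2) 𝓘(ℂ) q p) :=
    (HolAt.mdifferentiableAt hq).hasMFDerivAt
  have h2 : HasMFDerivAt 𝓘(ℂ, C2) 𝓘(ℂ) g p (mfderiv 𝓘(ℂ, C2) 𝓘(ℂ) g p) :=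
    (HolAt.mdifferentiableAt hg).hasMFDerivAt
  set A : C2 →L[ℂ] ℂ := mfderiv 𝓘(ℂ, C2) 𝓘(ℂ) g p with hA
  set B : C2 →L[ℂ] ℂ := mfderiv 𝓘(ℂ, C2) 𝓘(ℂ) q p with hB
  have h3 : HasMFDerivAt 𝓘(ℂ, C2) 𝓘(ℂ) (q * g) p (q p • A + g p • B : C2 →L[ℂ] ℂ) := h1.mul h2
  have h4 : mfderiv 𝓘(ℂ, C2) 𝓘(ℂ) x p = mfderiv 𝓘(ℂ, C2) 𝓘(ℂ) (q * g) p :=
    (show x =ᶠ[𝓝 p] q * g from heq).mfderiv_eq
  rw [h4, h3.mfderiv]
  intro h5
  apply hd
  have h6 : ∀ v : C2, q p * A v + g p * B v = 0 := fun v =>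
    DFunLike.congr_fun (F := C2 →L[ℂ] ℂ) h5 v
  have h7 : ∀ v : C2, A v = 0 := by
    intro v
    have h8 := h6 v
    rw [hg0, zero_mul, add_zero] at h8
    exact (mul_eq_zero.1 h8).resolve_left hq0
  exact ContinuousLinearMap.ext (f := A) (g := 0) h7

/-- near a point of a reduced curve -/
theorem mfderiv_ne_of_locRep {x : M → ℂ} {N ν : M → ℝ} {U V : Set M} {g : M → ℂ} {ψ : M → ℝ}
    (hr : LocRep C2 N U g ψ) (hV : IsOpen V) (hx : ∀ p ∈ V, HolAt 0 x p)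
    (hν : ContinuousOn ν V) (hν0 : ∀ p ∈ V, 0 < ν p)
    (heq : ∀ p ∈ V, ‖x p‖ ^ 2 = N p * ν p) {p : M} (hpU : p ∈ U) (hpV : p ∈ V)
    (hp0 : N p = 0) (hd : mfderiv 𝓘(ℂ, C2) 𝓘(ℂ) g p ≠ 0) :
    mfderiv 𝓘(ℂ, C2) 𝓘(ℂ) x p ≠ 0 := by
  set V' : Set M := U ∩ V with hV'
  have hV'o : IsOpen V' := hr.isOpen.inter hV
  have hgh : ∀ y ∈ V', HolAt 0 g y := fun y hy =>
    holAt_of_mdifferentiableOn hr.isOpen hr.hol hy.1
  have hnz : NZ g V' := by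
    intro y hy
    rw [frequently_iff]
    intro S hS
    obtain ⟨S', hS', hSo, hyS⟩ := mem_nhds_iff.1 hS
    obtain ⟨z, hz, hz0⟩ := hr.nz (S' ∩ U) (hSo.inter hr.isOpen) inter_subset_right
      ⟨y, hyS, hy.1⟩
    exact ⟨z, hS' hz.1, hz0⟩
  have hψc : ContinuousOn ψ V' := hr.smooth.continuousOn.mono inter_subset_left
  obtain ⟨q, hq, hqe, hqn⟩ := exists_quot (g := x) (h := g)
    (ν := fun y => Real.exp (-ψ y) * ν y) hV'o (fun y hy => hx y hy.2) hgh hnz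
    ((Real.continuous_exp.comp_continuousOn hψc.neg).mul (hν.mono inter_subset_right)) (by
      intro y hy
      rw [heq y hy.2, hr.eq y hy.1]
      ring)
  have hg0 : g p = 0 := (hr.eq_zero_iff hpU).1 hp0
  refine mfderiv_ne_of_mul (hq p ⟨hpU, hpV⟩) (hgh p ⟨hpU, hpV⟩) ?_ ?_ hg0 hd
  · filter_upwards [hV'o.mem_nhds ⟨hpU, hpV⟩] with y hy using hqe y hy
  · intro h0
    have h1 := hqn p ⟨hpU, hpV⟩
    rw [h0, norm_zero] at h1
    have h2 : 0 < Real.exp (-ψ p) * ν p := mul_pos (Real.exp_pos _) (hν0 p hpV)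
    have h3 : (0 : ℝ) ^ 2 = 0 := by norm_num
    rw [h3] at h1
    exact h2.ne h1

end deriv

variable {X : Type} [TopologicalSpace X] [ChartedSpace C2 X] [IsManifold 𝓘(ℂ, C2) ω X] {n : ℕ}
  {O : BlockOut X n} (Ch : Chain O)

theorem NN_succ (i : ℤ) (p : Cov O.B.hh) : NN Ch (i + 1) p = NN Ch i p *
    (Ch.Nc (i + 1) p * ∏ j ∈ Finset.Ico (i + 1 - (Ch.s (i + 1) : ℤ)) i, NN Ch j p) := by
  have h := Ch.div (i + 1) p
  have hs : (1 : ℤ) ≤ Ch.s (i + 1) := by exact_mod_cast Ch.s_pos (i + 1)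
  have h1 : Finset.Ico (i + 1 - (Ch.s (i + 1) : ℤ)) (i + 1) =
      insert i (Finset.Ico (i + 1 - (Ch.s (i + 1) : ℤ)) i) := by
    ext j
    simp only [Finset.mem_Ico, Finset.mem_insert]
    omega
  rw [h1, Finset.prod_insert (by simp)] at h
  show O.N (Ch.ord.symm (i + 1)) p = _
  rw [h]
  ring

theorem NN_bdd (l : ℤ) : ∃ C : ℝ, 0 ≤ C ∧ ∀ p, NN Ch l p ≤ C := by
  obtain ⟨C, hC⟩ := (O.cone (Ch.ord.symm l).1).α_bdd
  refine ⟨C ^ 2, sq_nonneg _, fun p => ?_⟩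
  exact pow_le_pow_left₀ (norm_nonneg _) (hC _) 2

theorem NN_zero (l : ℤ) (p : Cov O.B.hh) :
    NN Ch l p = 0 ↔ O.bα (Ch.ord.symm l) p = 0 := by
  show ‖O.bα (Ch.ord.symm l) p‖ ^ 2 = 0 ↔ _
  rw [sq_eq_zero_iff, norm_eq_zero]

theorem bα_zero (l : ℤ) (p : Cov O.B.hh) :
    O.bα (Ch.ord.symm l) p = 0 ↔ ∃ j ≤ l, p ∈ (Ch.C j).image := by
  rw [← NN_zero]
  exact Ch.zero l p

/-- the other factor of `N (i + 1) = N i * G` is bounded at the inner end -/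
theorem G_bdd (i : ℤ) : ∃ C R : ℝ, 0 ≤ C ∧ ∀ p, O.B.D.f p ≤ R →
    Ch.Nc (i + 1) p * ∏ j ∈ Finset.Ico (i + 1 - (Ch.s (i + 1) : ℤ)) i, NN Ch j p ≤ C := by
  classical
  obtain ⟨K, hK, h⟩ := Ch.Nc_in (i + 1)
  have h1 : ∀ S : Finset ℤ, ∃ C : ℝ, 0 ≤ C ∧ ∀ p, ∏ j ∈ S, NN Ch j p ≤ C := by
    intro S
    induction S using Finset.induction_on with
    | empty => exact ⟨1, zero_le_one, fun p => by simp⟩
    | insert a S ha ih =>
      obtain ⟨C, hC, h⟩ := ih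
      obtain ⟨C', hC', h'⟩ := NN_bdd Ch a
      refine ⟨C' * C, mul_nonneg hC' hC, fun p => ?_⟩
      rw [Finset.prod_insert ha]
      exact mul_le_mul (h' p) (h p) (Finset.prod_nonneg fun j _ => NN_nonneg Ch j p) hC'
  obtain ⟨C, hC, h2⟩ := h1 (Finset.Ico (i + 1 - (Ch.s (i + 1) : ℤ)) i)
  refine ⟨K * C, -K, mul_nonneg hK.le hC, fun p hp => ?_⟩
  exact mul_le_mul (h p hp).2 (h2 p) (Finset.prod_nonneg fun j _ => NN_nonneg Ch j p) hK.le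

/-- **the geometric input of route S.** -/
theorem exists_geo [T2Space X] (hE : ExactFrames O) : ∃ (i : ℤ) (φ : EmbP1 (Cov O.B.hh))
    (W : Set (Cov O.B.hh))
    (lam : Cov O.B.hh → EuclideanSpace ℂ (O.E (Ch.ord.symm (i + 1)).1).ι) (x : Cov O.B.hh → ℂ),
    φ.image = (Ch.C (i + 1)).image ∧
    H739.Geo O.B.D (O.bL (Ch.ord.symm (i + 1))) (O.ba (Ch.ord.symm (i + 1)))
      (O.bα (Ch.ord.symm (i + 1))) (O.bα (Ch.ord.symm i)) φ W lam x ∧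
    ∃ T, ∀ p ∈ W, O.B.D.f p ≤ T := by
  classical
  obtain ⟨i, W, lam, x, hWo, ⟨R, hR⟩, hT, hC, hfr, hfac, hxh, K, hK, hlam⟩ :=
    exists_root_frame Ch hE
  obtain ⟨p₀, hp₀⟩ := Ch.inter (i + 1)
  have hp₀' : p₀ ∈ (Ch.C (i + 1)).image ∩ ⋃ j ∈ Iio (i + 1), (Ch.C j).image := by
    rw [hp₀]; rfl
  obtain ⟨φ, hφ, hφ0⟩ := (Ch.C (i + 1)).reparam hp₀'.1
  -- the identity of norms
  have hnx : ∀ p ∈ W, ‖x p‖ ^ 2 * ‖lam p‖ ^ 2 = NN Ch (i + 1) p := by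
    intro p hp
    have h1 : NN Ch (i + 1) p = ‖O.bα (Ch.ord.symm (i + 1)) p‖ ^ 2 := rfl
    rw [h1, hfac p hp, norm_smul, mul_pow]
  have hKi : 0 < K⁻¹ := inv_pos.2 hK
  -- the basic inequality
  have hle : ∀ p ∈ W, ∀ B : ℝ, 0 ≤ B →
      Ch.Nc (i + 1) p * ∏ j ∈ Finset.Ico (i + 1 - (Ch.s (i + 1) : ℤ)) i, NN Ch j p ≤ B →
      ‖x p‖ ≤ (K * Real.sqrt B) * ‖O.bα (Ch.ord.symm i) p‖ := by
    intro p hp B hB h1
    have h2 := hnx p hp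
    rw [NN_succ] at h2
    have h3 : NN Ch i p = ‖O.bα (Ch.ord.symm i) p‖ ^ 2 := rfl
    have h4 := (hlam p hp).1
    have h5 : ‖x p‖ ^ 2 * (K⁻¹) ^ 2 ≤ ‖x p‖ ^ 2 * ‖lam p‖ ^ 2 :=
      mul_le_mul_of_nonneg_left (pow_le_pow_left₀ hKi.le h4 2) (sq_nonneg _)
    have h6 : ‖x p‖ ^ 2 * (K⁻¹) ^ 2 ≤ ‖O.bα (Ch.ord.symm i) p‖ ^ 2 * B := by
      refine h5.trans ?_
      rw [h2, h3]
      exact mul_le_mul_of_nonneg_left h1 (sq_nonneg _)
    have h7 : ‖x p‖ ^ 2 ≤ ((K * Real.sqrt B) * ‖O.bα (Ch.ord.symm i) p‖) ^ 2 := by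
      rw [mul_pow, mul_pow, Real.sq_sqrt hB]
      calc ‖x p‖ ^ 2 = (‖x p‖ ^ 2 * (K⁻¹) ^ 2) * K ^ 2 := by field_simp
        _ ≤ (‖O.bα (Ch.ord.symm i) p‖ ^ 2 * B) * K ^ 2 :=
            mul_le_mul_of_nonneg_right h6 (sq_nonneg _)
        _ = _ := by ring
    exact le_of_sq_le_sq h7 (by positivity)
  have hGc : Continuous fun p : Cov O.B.hh => Ch.Nc (i + 1) p *
      ∏ j ∈ Finset.Ico (i + 1 - (Ch.s (i + 1) : ℤ)) i, NN Ch j p :=
    (Ch.Nc_norm _).continuous.mul (continuous_finsetProd _ fun j _ => NN_continuous Ch j)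
  have hG0 : ∀ p, 0 ≤ Ch.Nc (i + 1) p *
      ∏ j ∈ Finset.Ico (i + 1 - (Ch.s (i + 1) : ℤ)) i, NN Ch j p := fun p =>
    mul_nonneg (Nc_nonneg Ch _ p) (Finset.prod_nonneg fun j _ => NN_nonneg Ch j p)
  refine ⟨i, φ, W, lam, x, hφ, ?_, hT⟩
  refine { open_W := hWo, frame := hfr, fac := hfac, x_hol := hxh, x_le := ?_, inn := ?_,
           Y_sub := ?_, zero := ?_, α_img := ?_, base := ?_, meet := ?_, dx := ?_ }
  · -- x_le
    intro p hp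
    set B := Ch.Nc (i + 1) p * ∏ j ∈ Finset.Ico (i + 1 - (Ch.s (i + 1) : ℤ)) i, NN Ch j p with hB
    refine ⟨K * Real.sqrt (B + 1), ?_⟩
    have h1 : ∀ᶠ y in 𝓝 p, Ch.Nc (i + 1) y *
        ∏ j ∈ Finset.Ico (i + 1 - (Ch.s (i + 1) : ℤ)) i, NN Ch j y < B + 1 :=
      hGc.continuousAt.eventually_lt_const (by linarith)
    filter_upwards [h1, hWo.mem_nhds hp] with y hy hyW
    exact hle y hyW (B + 1) (by have := hG0 p; linarith) hy.le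
  · -- inn
    obtain ⟨C, R', hC0, hC'⟩ := G_bdd Ch i
    refine ⟨min R R', max (K * Real.sqrt C) K, fun p hp => ?_⟩
    have hpW : p ∈ W := hR p (hp.trans (min_le_left _ _))
    have h1 := hle p hpW C hC0 (hC' p (hp.trans (min_le_right _ _)))
    obtain ⟨h2, h3⟩ := hlam p hpW
    refine ⟨hpW, h1.trans (mul_le_mul_of_nonneg_right (le_max_left _ _) (norm_nonneg _)), ?_,
      h3.trans (le_max_right _ _)⟩
    calc (1 : ℝ) = K * K⁻¹ := (mul_inv_cancel₀ hK.ne').symm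
      _ ≤ K * ‖lam p‖ := mul_le_mul_of_nonneg_left h2 hK.le
      _ ≤ _ := mul_le_mul_of_nonneg_right (le_max_right _ _) (norm_nonneg _)
  · -- Y_sub
    intro p hp
    obtain ⟨j, hj, hpj⟩ := (bα_zero Ch i p).1 hp
    exact hC j hj hpj
  · -- zero
    intro p hp h0
    have h1 : O.bα (Ch.ord.symm (i + 1)) p = 0 := by rw [hfac p hp, h0, zero_smul]
    obtain ⟨j, hj, hpj⟩ := (bα_zero Ch (i + 1) p).1 h1
    rcases eq_or_lt_of_le hj with rfl | h2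
    · right
      rw [hφ]
      exact hpj
    · left
      exact (bα_zero Ch i p).2 ⟨j, by linarith, hpj⟩
  · -- α_img
    intro p hp
    rw [hφ] at hp
    exact (bα_zero Ch (i + 1) p).2 ⟨i + 1, le_rfl, hp⟩
  · -- base
    rw [hφ0]
    obtain ⟨j, hj, hpj⟩ := mem_iUnion₂.1 hp₀'.2
    have hj' : j < i + 1 := hj
    exact (bα_zero Ch i p₀).2 ⟨j, by linarith, hpj⟩
  · -- meet
    intro p hp h0
    rw [hφ] at hp
    obtain ⟨j, hj, hpj⟩ := (bα_zero Ch i p).1 h0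
    have h1 : p ∈ (Ch.C (i + 1)).image ∩ ⋃ j ∈ Iio (i + 1), (Ch.C j).image :=
      ⟨hp, mem_iUnion₂.2 ⟨j, mem_Iio.2 (by linarith), hpj⟩⟩
    rw [hp₀] at h1
    rw [hφ0]
    exact h1
  · -- dx
    intro p hp hpφ h0
    rw [hφ] at hpφ
    obtain ⟨U, g, ψ, hpU, hr, hd⟩ := Ch.Nc_red (i + 1) p hpφ
    have hnz : ∀ j ≤ i, NN Ch j p ≠ 0 := by
      intro j hj h1
      obtain ⟨k, hk, hpk⟩ := (bα_zero Ch j p).1 ((NN_zero Ch j p).1 h1)
      exact h0 ((bα_zero Ch i p).2 ⟨k, hk.trans hj, hpk⟩)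
    set S := Finset.Ico (i + 1 - (Ch.s (i + 1) : ℤ)) (i + 1) with hS
    set P : Cov O.B.hh → ℝ := fun y => ∏ j ∈ S, NN Ch j y with hP
    have hPc : Continuous P := continuous_finsetProd _ fun j _ => NN_continuous Ch j
    have hPp : 0 < P p := Finset.prod_pos fun j hj =>
      lt_of_le_of_ne (NN_nonneg Ch j p) (hnz j (by
        have := (Finset.mem_Ico.1 hj).2
        linarith)).symm
    set V : Set (Cov O.B.hh) := W ∩ {y | 0 < P y} with hV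
    have hVo : IsOpen V := hWo.inter (isOpen_lt continuous_const hPc)
    have hlc : ContinuousOn (fun y => ‖lam y‖) V := fun y hy =>
      ((hfr y hy.1).self_of_nhds.1.continuousAt.norm).continuousWithinAt
    have hl0 : ∀ y ∈ V, 0 < ‖lam y‖ := fun y hy => hKi.trans_le (hlam y hy.1).1
    refine mfderiv_ne_of_locRep (ν := fun y => P y * (‖lam y‖ ^ 2)⁻¹) hr hVo
      (fun y hy => hxh y hy.1) ?_ ?_ ?_ hpU ⟨hp, hPp⟩ ((Ch.Nc_zero _ p).2 hpφ) hd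
    · exact hPc.continuousOn.mul ((hlc.pow 2).inv₀ fun y hy => (pow_pos (hl0 y hy) 2).ne')
    · exact fun y hy => mul_pos hy.2 (inv_pos.2 (pow_pos (hl0 y hy) 2))
    · intro y hy
      have h1 := hnx y hy.1
      have h2 : NN Ch (i + 1) y = Ch.Nc (i + 1) y * P y := Ch.div (i + 1) y
      have h3 : ‖lam y‖ ^ 2 ≠ 0 := (pow_pos (hl0 y hy) 2).ne'
      rw [h2] at h1
      rw [← mul_assoc, ← h1, mul_assoc, mul_inv_cancel₀ h3, mul_one]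

end Vale.Agent.P267.H406
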