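import Vale.Agent.P267.H399.Calc3
import Vale.Agent.P267.H338.Riem

/-!
# P267, GS-ROOT-IN (helper406): holomorphic quotients with prescribed absolute value

* closure properties of `HolAt 0`;
* `exists_quot`: if `‖g‖² = ‖h‖² ν` with `ν` continuous, then `g = q h` with `q` holomorphic and
  `‖q‖² = ν` (Riemann extension).
-/

set_option linter.unusedSectionVars false

open scoped Manifold ContDiff Topology
open Set Filter

noncomputable section

namespace Vale.Agent.P267.H406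

open Vale.Agent.P267.FL

variable {X : Type*} [TopologicalSpace X] [ChartedSpace C2 X] [IsManifold 𝓘(ℂ, C2) ω X]

section hol

variable {f g h : X → ℂ} {x : X}

theorem holAt_zero_iff : HolAt 0 f x ↔
    AnalyticAt ℂ (f ∘ (chartAt C2 x).symm) (chartAt C2 x x) := by
  unfold HolAt
  rw [LB.loc0_zero]

theorem holAt_continuousAt (hf : HolAt 0 f x) : ContinuousAt f x :=
  (hf.at0 (n := 0)).continuousAt

theorem holAt_comp {G : ℂ → ℂ} (hf : HolAt 0 f x) (hG : AnalyticAt ℂ G (f x)) :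
    HolAt 0 (fun y => G (f y)) x := by
  rw [holAt_zero_iff] at hf ⊢
  have h1 : AnalyticAt ℂ G ((f ∘ (chartAt C2 x).symm) (chartAt C2 x x)) := by
    rw [Function.comp_apply, (chartAt C2 x).left_inv (mem_chart_source C2 x)]
    exact hG
  exact h1.comp hf

theorem holAt_mul (hf : HolAt 0 f x) (hg : HolAt 0 g x) : HolAt 0 (fun y => f y * g y) x := by
  rw [holAt_zero_iff] at hf hg ⊢
  exact hf.mul hg

theorem holAt_const (c : ℂ) : HolAt 0 (fun _ : X => c) x := by
  rw [holAt_zero_iff]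
  exact analyticAt_const

theorem holAt_pow (hf : HolAt 0 f x) (n : ℕ) : HolAt 0 (fun y => f y ^ n) x :=
  holAt_comp hf (analyticAt_id.pow n)

theorem holAt_inv (hf : HolAt 0 f x) (h0 : f x ≠ 0) : HolAt 0 (fun y => (f y)⁻¹) x :=
  holAt_comp hf (analyticAt_id.inv h0)

theorem holAt_div (hf : HolAt 0 f x) (hg : HolAt 0 g x) (h0 : g x ≠ 0) :
    HolAt 0 (fun y => f y / g y) x := by
  simpa only [div_eq_mul_inv] using holAt_mul hf (holAt_inv hg h0)

theorem holAt_cexp (hf : HolAt 0 f x) : HolAt 0 (fun y => Complex.exp (f y)) x :=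
  holAt_comp hf analyticAt_cexp

theorem holAt_prod {ι : Type*} (S : Finset ι) {F : ι → X → ℂ} (hF : ∀ i ∈ S, HolAt 0 (F i) x) :
    HolAt 0 (fun y => ∏ i ∈ S, F i y) x := by
  classical
  induction S using Finset.induction_on with
  | empty => simpa using holAt_const (x := x) (1 : ℂ)
  | insert a S ha ih =>
    simp only [Finset.prod_insert ha]
    exact holAt_mul (hF a (Finset.mem_insert_self a S))
      (ih fun i hi => hF i (Finset.mem_insert_of_mem hi))

end hol

/-- `h` does not vanish identically near any point of `U` -/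
def NZ (h : X → ℂ) (U : Set X) : Prop := ∀ x ∈ U, ∃ᶠ y in 𝓝 x, h y ≠ 0

theorem NZ.mono {h : X → ℂ} {U V : Set X} (hh : NZ h U) (hV : V ⊆ U) : NZ h V :=
  fun x hx => hh x (hV hx)

/-- local quotient -/
theorem exists_quot_local {g h : X → ℂ} {ν : X → ℝ} {U : Set X} (hU : IsOpen U)
    (hg : ∀ x ∈ U, HolAt 0 g x) (hh : ∀ x ∈ U, HolAt 0 h x) (hnz : NZ h U)
    (hν : ContinuousOn ν U) (heq : ∀ x ∈ U, ‖g x‖ ^ 2 = ‖h x‖ ^ 2 * ν x) {p : X} (hp : p ∈ U) :
    ∃ (W : Set X) (q : X → ℂ), IsOpen W ∧ p ∈ W ∧ W ⊆ U ∧ (∀ x ∈ W, HolAt 0 q x) ∧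
      ∀ x ∈ W, g x = q x * h x := by
  set e := chartAt C2 p with he
  have heA : e ∈ atlas C2 X := chart_mem_atlas C2 p
  have hps : p ∈ e.source := mem_chart_source C2 p
  -- shrink `U`
  set U' : Set X := U ∩ ν ⁻¹' (Set.Iio (ν p + 1)) with hU'
  have hU'o : IsOpen U' := hν.isOpen_inter_preimage hU isOpen_Iio
  have hpU' : p ∈ U' := ⟨hp, by change ν p < ν p + 1; linarith⟩
  set V : Set C2 := e.target ∩ e.symm ⁻¹' U' with hV
  have hVo : IsOpen V := e.symm.isOpen_inter_preimage hU'o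
  have hpV : e p ∈ V := ⟨e.map_source hps, by
    rw [mem_preimage, e.left_inv hps]; exact hpU'⟩
  have hgd : ∀ z ∈ V, DifferentiableAt ℂ (g ∘ e.symm) z := by
    intro z hz
    have h1 := (hg (e.symm z) hz.2.1).chart heA (e.map_target hz.1)
    rw [LB.loc0_zero, e.right_inv hz.1] at h1
    exact AnalyticAt.differentiableAt h1
  have hhd : ∀ z ∈ V, DifferentiableAt ℂ (h ∘ e.symm) z := by
    intro z hz
    have h1 := (hh (e.symm z) hz.2.1).chart heA (e.map_target hz.1)
    rw [LB.loc0_zero, e.right_inv hz.1] at h1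
    exact AnalyticAt.differentiableAt h1
  have hne : ∃ᶠ z in 𝓝 (e p), (h ∘ e.symm) z ≠ 0 := by
    have h1 := hnz p hp
    have h2 : Tendsto e (𝓝 p) (𝓝 (e p)) := e.continuousAt hps
    have h3 : ∃ᶠ y in 𝓝 p, (h ∘ e.symm) (e y) ≠ 0 := by
      refine (h1.and_eventually (e.open_source.mem_nhds hps)).mono ?_
      rintro y ⟨hy, hys⟩
      rwa [Function.comp_apply, e.left_inv hys]
    exact h2.frequently h3
  have hu : DifferentiableOn ℂ (fun z => (g ∘ e.symm) z / (h ∘ e.symm) z)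
      (V ∩ {z | (h ∘ e.symm) z ≠ 0}) := by
    intro z hz
    have h3 : DifferentiableAt ℂ (fun z => (g ∘ e.symm) z * ((h ∘ e.symm) z)⁻¹) z :=
      (hgd z hz.1).mul ((hhd z hz.1).inv hz.2)
    simpa only [div_eq_mul_inv] using h3.differentiableWithinAt
  have hb : ∀ z ∈ V, (h ∘ e.symm) z ≠ 0 →
      ‖(g ∘ e.symm) z / (h ∘ e.symm) z‖ ≤ Real.sqrt (ν p + 1) := by
    intro z hz hz0
    apply Real.le_sqrt_of_sq_le
    rw [norm_div, div_pow]
    have h1 := heq (e.symm z) hz.2.1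
    have h2 : ν (e.symm z) < ν p + 1 := hz.2.2
    have h3 : (0 : ℝ) < ‖h (e.symm z)‖ ^ 2 := pow_pos (norm_pos_iff.2 hz0) 2
    rw [Function.comp_apply, Function.comp_apply, h1, mul_div_cancel_left₀ _ h3.ne']
    exact h2.le
  obtain ⟨W, hWo, hpW, hWV, q, hq, hqe⟩ := H338.riemann_extension hVo hpV
    (fun z hz => (hhd z hz).differentiableWithinAt) hne hu hb
  refine ⟨e.source ∩ e ⁻¹' W, fun x => q (e x), e.isOpen_inter_preimage hWo, ⟨hps, hpW⟩,
    ?_, ?_, ?_⟩
  · intro x hx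
    have h1 := (hWV hx.2).2.1
    rwa [e.left_inv hx.1] at h1
  · intro x hx
    refine holAt_of_chart heA hx.1 ?_
    rw [LB.loc0_zero]
    have h1 : AnalyticAt ℂ q (e x) := P281.MF.analyticAt_of_differentiableOn hWo hq hx.2
    refine h1.congr ?_
    filter_upwards [e.open_target.mem_nhds (e.map_source hx.1)] with z hz
    rw [Function.comp_apply, e.right_inv hz]
  · intro x hx
    have h5 := (hWV hx.2).2.1
    rw [e.left_inv hx.1] at h5
    by_cases h0 : h x = 0
    · have h1 := heq x h5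
      rw [h0, norm_zero] at h1
      have h2 : g x = 0 := by
        rw [← norm_eq_zero]
        have : ‖g x‖ ^ 2 = 0 := by rw [h1]; ring
        exact pow_eq_zero_iff (two_ne_zero) |>.1 this
      rw [h2, h0, mul_zero]
    · have h1 := hqe (e x) hx.2 (by rwa [Function.comp_apply, e.left_inv hx.1])
      change g x = q (e x) * h x
      rw [h1, Function.comp_apply, Function.comp_apply, e.left_inv hx.1, div_mul_cancel₀ _ h0]

/-- **Quotients.** -/
theorem exists_quot {g h : X → ℂ} {ν : X → ℝ} {U : Set X} (hU : IsOpen U)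
    (hg : ∀ x ∈ U, HolAt 0 g x) (hh : ∀ x ∈ U, HolAt 0 h x) (hnz : NZ h U)
    (hν : ContinuousOn ν U) (heq : ∀ x ∈ U, ‖g x‖ ^ 2 = ‖h x‖ ^ 2 * ν x) :
    ∃ q : X → ℂ, (∀ x ∈ U, HolAt 0 q x) ∧ (∀ x ∈ U, g x = q x * h x) ∧
      ∀ x ∈ U, ‖q x‖ ^ 2 = ν x := by
  classical
  choose W q hWo hpW hWU hq hqe using
    fun (p : X) (hp : p ∈ U) => exists_quot_local hU hg hh hnz hν heq hp
  have huniq : ∀ p (hp : p ∈ U) r (hr : r ∈ U), ∀ x ∈ W p hp ∩ W r hr, q p hp x = q r hr x := by
    intro p hp r hr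
    refine H338.eqOn_of_dense ((hWo p hp).inter (hWo r hr)) (P := fun y => h y ≠ 0)
      (fun x hx => hnz x (hWU p hp hx.1)) ?_ ?_ ?_
    · exact fun x hx => (holAt_continuousAt (hq p hp x hx.1)).continuousWithinAt
    · exact fun x hx => (holAt_continuousAt (hq r hr x hx.2)).continuousWithinAt
    · intro x hx h0
      have h1 := hqe p hp x hx.1
      rw [hqe r hr x hx.2] at h1
      exact (mul_right_cancel₀ h0 h1).symm
  let Q : X → ℂ := fun x => if hx : x ∈ U then q x hx x else 0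
  have hQ : ∀ p (hp : p ∈ U), ∀ x ∈ W p hp, Q x = q p hp x := by
    intro p hp x hx
    have hxU := hWU p hp hx
    change (if hx : x ∈ U then q x hx x else 0) = _
    rw [dif_pos hxU]
    exact huniq x hxU p hp x ⟨hpW x hxU, hx⟩
  have h1 : ∀ x ∈ U, HolAt 0 Q x := by
    intro x hx
    refine (hq x hx x (hpW x hx)).congr ?_
    filter_upwards [(hWo x hx).mem_nhds (hpW x hx)] with y hy using hQ x hx y hy
  have h2 : ∀ x ∈ U, g x = Q x * h x := by
    intro x hx
    rw [hQ x hx x (hpW x hx)]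
    exact hqe x hx x (hpW x hx)
  refine ⟨Q, h1, h2, ?_⟩
  refine H338.eqOn_of_dense hU (P := fun y => h y ≠ 0) hnz ?_ hν ?_
  · exact fun x hx => ((holAt_continuousAt (h1 x hx)).norm.pow 2).continuousWithinAt
  · intro x hx h0
    have h3 := heq x hx
    rw [h2 x hx, norm_mul, mul_pow, mul_comm] at h3
    exact mul_left_cancel₀ (pow_pos (norm_pos_iff.2 h0) 2).ne' h3

end Vale.Agent.P267.H406
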