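import Vale.Agent.P267.H188.Root
import Vale.Agent.P267.H406.Quot

/-!
# P267, GS-ROOT-IN (helper406): root data from absolute values

`(L, a, α)` a holomorphic section, `A` holomorphic on `U` with `‖A‖² = ‖α‖^{2m} w`, `w` continuous
and positive: then `A` is locally a unit times the `m`-th power of the coefficient of `α`
(`rootData_of_norm`), and a root frame `l` satisfies `‖l‖^{2m} w = 1` (`norm_frame`).
-/

set_option linter.unusedSectionVars false

open scoped Manifold ContDiff Topology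
open Set Filter

noncomputable section

namespace Vale.Agent.P267.H406

open Vale.Agent.P267.FL Vale.Agent.P267.H466 Vale.Agent.P267.H188

variable {X : Type} [TopologicalSpace X] [ChartedSpace C2 X] [IsManifold 𝓘(ℂ, C2) ω X]
variable {ι : Type} [Fintype ι] [DecidableEq ι] {L : LB X ι} {a : X → Fin 2 → ℂ}
  {α : X → EuclideanSpace ℂ ι}

/-- `α` is a holomorphic section of `(L, a)`, not identically zero near any point -/
structure HSec (L : LB X ι) (a : X → Fin 2 → ℂ) (α : X → EuclideanSpace ℂ ι) : Prop where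
  hol : L.IsHol a
  reg : Reg0 ∞ 0 α
  sec : L.Sec α
  db : ∀ x i, L.db0 a 0 α x i = 0
  dense : Dense {x | α x ≠ 0}

theorem HSec.frequently (h : HSec L a α) (x : X) : ∃ᶠ y in 𝓝 x, α y ≠ 0 :=
  mem_closure_iff_frequently.1 (h.dense x)

theorem rootData_of_norm [T2Space X] (h : HSec L a α) {U : Set X} (hU : IsOpen U) {A : X → ℂ}
    {w : X → ℝ} {m : ℕ} (hm : 0 < m) (hA : ∀ x ∈ U, HolAt 0 A x) (hw : ContinuousOn w U)
    (hw0 : ∀ x ∈ U, 0 < w x) (heq : ∀ x ∈ U, ‖A x‖ ^ 2 = (‖α x‖ ^ 2) ^ m * w x) :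
    RootData L a α A (fun _ => 1) m U where
  open_W := hU
  pos := hm
  sec y _ := ⟨h.reg.at y, h.sec y, funext (h.db y)⟩
  dense p _ := (h.frequently p).mono fun y hy => ⟨hy, one_ne_zero⟩
  loc := by
    intro p hp
    obtain ⟨W, f, hWo, hpW, hf, hfs, hfW, hc, hch⟩ := exists_local h.hol h.reg h.sec h.db p
    have hVo : IsOpen (W ∩ U) := hWo.inter hU
    have hfc : ContinuousOn f (W ∩ U) := fun y _ => (hf.at y).continuousAt.continuousWithinAt
    have hnz : NZ (fun y => cof f α y ^ m) (W ∩ U) := by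
      intro x hx
      refine ((h.frequently x).and_eventually (hVo.mem_nhds hx)).mono ?_
      rintro y ⟨hy, hyW⟩
      refine pow_ne_zero _ fun h0 => hy ?_
      rw [hc y hyW.1, h0, zero_smul]
    have hν : ContinuousOn (fun y => (‖f y‖ ^ 2) ^ m * w y) (W ∩ U) :=
      ((hfc.norm.pow 2).pow m).mul (hw.mono inter_subset_right)
    have heq' : ∀ x ∈ W ∩ U, ‖A x‖ ^ 2 = ‖cof f α x ^ m‖ ^ 2 * ((‖f x‖ ^ 2) ^ m * w x) := by
      intro x hx
      rw [heq x hx.2, norm_pow]
      have : ‖α x‖ = ‖cof f α x‖ * ‖f x‖ := by rw [← norm_smul, ← hc x hx.1]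
      rw [this]
      ring
    obtain ⟨q, hq, hqe, hqn⟩ := exists_quot hVo (fun x hx => hA x hx.2)
      (fun x hx => holAt_pow (hch x hx.1) m) hnz hν heq'
    refine ⟨f, q, ?_, hq p ⟨hpW, hp⟩, ?_, ?_⟩
    · refine frameAt_of_eventually hf hfs ?_
      filter_upwards [hWo.mem_nhds hpW] with y hy using ⟨(hfW y hy).1, (hfW y hy).2⟩
    · intro h0
      have h1 := hqn p ⟨hpW, hp⟩
      rw [h0, norm_zero] at h1
      have h2 : 0 < (‖f p‖ ^ 2) ^ m * w p :=
        mul_pos (pow_pos (pow_pos (norm_pos_iff.2 (hfW p hpW).1) 2) m) (hw0 p hp)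
      rw [← h1] at h2
      simp at h2
    · filter_upwards [hVo.mem_nhds ⟨hpW, hp⟩] with y hy
      rw [mul_one]
      exact hqe y hy

/-- the norm of a root frame -/
theorem norm_frame (h : HSec L a α) {A : X → ℂ} {w : X → ℝ} {m : ℕ} {N : Set X}
    {l : X → EuclideanSpace ℂ ι} (hR : RootFrame L a α A (fun _ => 1) m N l)
    (hw : ContinuousOn w N) (heq : ∀ x ∈ N, ‖A x‖ ^ 2 = (‖α x‖ ^ 2) ^ m * w x) :
    ∀ x ∈ N, (‖l x‖ ^ 2) ^ m * w x = 1 := by
  refine H338.eqOn_of_dense hR.open_N (P := fun y => α y ≠ 0) (fun x _ => h.frequently x) ?_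
    continuousOn_const ?_
  · have hl : ContinuousOn l N := fun y hy =>
      ((hR.frame y hy).self_of_nhds.1.continuousAt).continuousWithinAt
    exact ((hl.norm.pow 2).pow m).mul hw
  · intro x hx h0
    have h1 := heq x hx
    have h2 := hR.coef x hx
    have h3 := hR.root x hx
    have h4 : ‖α x‖ = ‖cof l α x‖ * ‖l x‖ := by rw [← norm_smul, ← h2]
    have h5 : ‖cof l α x‖ ≠ 0 := by
      intro h5
      rw [h5, zero_mul, norm_eq_zero] at h4
      exact h0 h4
    rw [h3, mul_one, norm_pow, h4] at h1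
    have h6 : (‖cof l α x‖ ^ 2) ^ m ≠ 0 := pow_ne_zero _ (pow_ne_zero _ h5)
    apply mul_left_cancel₀ h6
    rw [mul_one]
    calc (‖cof l α x‖ ^ 2) ^ m * ((‖l x‖ ^ 2) ^ m * w x)
        = ((‖cof l α x‖ * ‖l x‖) ^ 2) ^ m * w x := by ring
      _ = (‖cof l α x‖ ^ m) ^ 2 := h1.symm
      _ = (‖cof l α x‖ ^ 2) ^ m := by ring

end Vale.Agent.P267.H406
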