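import Vale.Agent.P267.H406.Ex
import Vale.Agent.P267.H209.Contr

/-!
# P267, GS-ROOT-IN (helper406): the exact function `x` and the frame `lam` of `E_{i+1}`

`exists_root_frame`: for some `i`, on an open neighbourhood `N` of `⋃ k ≤ i, C k` and of the inner
end, bounded outward, there are a holomorphic frame `lam` of `E_{i+1}`, `K⁻¹ ≤ ‖lam‖ ≤ K`, and a
holomorphic function `x` with `α_{i+1} = x • lam`.
-/

set_option linter.unusedSectionVars false
set_option linter.unusedVariables false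

open scoped Manifold ContDiff Topology Matrix
open Set Filter

noncomputable section

namespace Vale.Agent.P267.H406

open Vale.Agent.P267.FL Vale.Agent.P267.H466 Vale.Agent.P267.H188 Vale.Agent.P267.XT
open Vale.Agent.P267.H158 Vale.Agent.P267.LineX Vale.Agent.P267.H706 Vale.Agent.P267.H338
open Vale.Agent.P267.H757 Vale.Agent.P267.H209

theorem normalSpace {M : Type} [TopologicalSpace M] [ChartedSpace C2 M]
    [IsManifold 𝓘(ℂ, C2) ω M] [T2Space M] (D : XTData M) : NormalSpace M := by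
  have h1 : LocallyCompactSpace M := ChartedSpace.locallyCompactSpace C2 M
  have h2 : SigmaCompactSpace M := by
    refine ⟨⟨fun k : ℕ => D.f ⁻¹' Icc (-(k : ℝ)) k, fun k => D.f_proper _ _, ?_⟩⟩
    refine eq_univ_of_forall fun x => ?_
    obtain ⟨k, hk⟩ := exists_nat_ge |D.f x|
    exact mem_iUnion.2 ⟨k, abs_le.1 hk⟩
  infer_instance

theorem exists_exp_small {A ε δ : ℝ} (hε : 0 < ε) (hδ : 0 < δ) :
    ∃ R : ℝ, ∀ t ≤ R, A * Real.exp (ε * t) < δ := by
  have h1 : Tendsto (fun t : ℝ => A * Real.exp (ε * t)) atBot (𝓝 (A * 0)) := by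
    refine Tendsto.const_mul A (Real.tendsto_exp_atBot.comp ?_)
    exact tendsto_id.const_mul_atBot hε
  rw [mul_zero] at h1
  exact (eventually_atBot.1 (h1.eventually_lt_const hδ))

variable {X : Type} [TopologicalSpace X] [ChartedSpace C2 X] [IsManifold 𝓘(ℂ, C2) ω X] {n : ℕ}
  {O : BlockOut X n} (Ch : Chain O)

/-- the root frame near the inner end -/
theorem exists_inner_root (hE : ExactFrames O) {i : ℤ} {m : ℕ} (hm : 0 < m)
    {U : Set (Cov O.B.hh)} {A : Cov O.B.hh → ℂ} {w : Cov O.B.hh → ℝ} (hU : IsOpen U)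
    (hUi : ∃ R, ∀ p, O.B.D.f p ≤ R → p ∈ U) (hA : ∀ p ∈ U, HolAt 0 A p)
    (hw : ContinuousOn w U) (hw0 : ∀ p ∈ U, 0 < w p)
    (heq : ∀ p ∈ U, ‖A p‖ ^ 2 = NN Ch (i + 1) p ^ m * w p) (hwB : InB O.B.D.f w) :
    ∃ (R : ℝ) (l : Cov O.B.hh → EuclideanSpace ℂ (O.E (Ch.ord.symm (i + 1)).1).ι),
      (∀ p, O.B.D.f p < R → p ∈ U) ∧ (∀ p, O.B.D.f p < R → ContinuousAt l p) ∧
      ∀ p, O.B.D.f p < R → Rt (O.bL (Ch.ord.symm (i + 1))) (O.ba (Ch.ord.symm (i + 1)))
        (O.bα (Ch.ord.symm (i + 1))) A (fun _ => 1) m p (l p) := by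
  obtain ⟨RU, hRU⟩ := hUi
  obtain ⟨R, hR0, hex⟩ := exists_exact O hE
  set b := Ch.ord.symm (i + 1) with hb
  obtain ⟨g, F, w1, hg, hF, hgF, hw1, hw10, hw1B, hFN⟩ := hex b
  set D := O.B.D with hD
  have hfc : Continuous D.f := continuous_f D
  set V : Set (Cov O.B.hh) := {x | D.f x < b.2 - R} ∩ U with hV
  have hVo : IsOpen V := (isOpen_lt hfc continuous_const).inter hU
  have hm' : (m : ℂ) ≠ 0 := by exact_mod_cast hm.ne'
  -- the quotient
  have hnz : NZ (fun p => F p ^ m) V := by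
    intro p hp
    have h1 := mem_closure_iff_frequently.1 (NN_dense Ch (i + 1) p)
    refine (h1.and_eventually (hVo.mem_nhds hp)).mono ?_
    rintro q ⟨hq, hqV⟩
    refine pow_ne_zero _ fun h0 => ?_
    have h2 := hFN q hqV.1
    rw [h0, norm_zero] at h2
    exact mul_ne_zero hq (hw10 q).ne' (by rw [← h2]; norm_num)
  obtain ⟨q, hq, hqA, hqn⟩ := exists_quot (g := A) (h := fun p => F p ^ m)
    (ν := fun p => w p * ((w1 p) ^ m)⁻¹) hVo (fun p hp => hA p hp.2)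
    (fun p hp => holAt_pow (hF p hp.1) m) hnz
    ((hw.mono inter_subset_right).mul ((hw1.pow m).continuousOn.inv₀ fun p _ =>
      pow_ne_zero _ (hw10 p).ne')) (by
      intro p hp
      have h1 := heq p hp.2
      have h2 : ‖F p ^ m‖ ^ 2 = NN Ch (i + 1) p ^ m * w1 p ^ m := by
        rw [norm_pow, ← pow_mul, mul_comm m 2, pow_mul, hFN p hp.1, mul_pow]
      have h3 : w1 p ^ m ≠ 0 := pow_ne_zero _ (hw10 p).ne'
      rw [h1, h2]
      field_simp)
  have hqB : InB D.f fun p => w p * ((w1 p) ^ m)⁻¹ := hwB.mul (hw1B.pow m).inv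
  obtain ⟨K, R2, hK, hKq⟩ := hqB
  set R1 : ℝ := min (b.2 - R) RU with hR1
  have hR1V : ∀ x, D.f x < R1 → x ∈ V := fun x hx =>
    ⟨hx.trans_le (min_le_left _ _), hRU x (hx.trans_le (min_le_right _ _)).le⟩
  -- the limit
  have hd0 := O.leaves.pos
  have hroot : D.RootGap O.d₀ := O.leaves.root _ hd0 le_rfl
  obtain ⟨c, A', R3, hA', hR3a, hR3b, hR30, hlim⟩ := lim_near_in (D := D) hroot
    (half_pos hd0) (by linarith) (O.t1o _ hroot _ (half_pos hd0) le_rfl) (k := q) (R := R1)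
    (fun x hx => hq x (hR1V x hx)) (R' := min (min R2 (R1 - 1)) 0) (C := Real.sqrt K) (by
      intro x hx
      have h1 : D.f x ≤ R2 := hx.trans ((min_le_left _ _).trans (min_le_left _ _))
      have h2 : D.f x ≤ 0 := hx.trans (min_le_right _ _)
      have h3 : D.f x < R1 := lt_of_le_of_lt (hx.trans ((min_le_left _ _).trans
        (min_le_right _ _))) (by linarith)
      have h4 : ‖q x‖ ≤ Real.sqrt K := by
        apply Real.le_sqrt_of_sq_le
        rw [hqn x (hR1V x h3)]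
        exact (hKq x h1).2
      have h5 : 1 ≤ Real.exp (-(O.d₀ * D.f x)) := by
        rw [Real.one_le_exp_iff]
        nlinarith
      calc ‖q x‖ ≤ Real.sqrt K := h4
        _ = Real.sqrt K * 1 := (mul_one _).symm
        _ ≤ _ := mul_le_mul_of_nonneg_left h5 (Real.sqrt_nonneg _))
  have hne : Nonempty (Cov O.B.hh) := ⟨(Ch.C 0).f₀ 0⟩
  have hR3' : ∀ x, D.f x ≤ R3 → D.f x ≤ R2 ∧ D.f x < R1 := fun x hx =>
    ⟨(hx.trans hR3b).trans ((min_le_left _ _).trans (min_le_left _ _)), lt_of_le_of_lt hx hR3a⟩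
  have hc0 : c ≠ 0 := by
    rintro rfl
    obtain ⟨R4, hR4⟩ := exists_exp_small (A := A') (half_pos hd0)
      (Real.sqrt_pos.2 (inv_pos.2 hK))
    obtain ⟨x, hx⟩ := exists_f_lt D (min R3 R4)
    have h1 := hlim x (hx.le.trans (min_le_left _ _))
    have h2 := hR4 (D.f x) (hx.le.trans (min_le_right _ _))
    obtain ⟨h3, h4⟩ := hR3' x (hx.le.trans (min_le_left _ _))
    rw [sub_zero] at h1
    have h5 : Real.sqrt K⁻¹ ≤ ‖q x‖ := by
      rw [← Real.sqrt_sq (norm_nonneg (q x))]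
      apply Real.sqrt_le_sqrt
      rw [hqn x (hR1V x h4)]
      exact (hKq x h3).1
    linarith
  obtain ⟨R4, hR4⟩ := exists_exp_small (A := A') (half_pos hd0) (half_pos (norm_pos_iff.2 hc0))
  set R5 : ℝ := min R3 R4 with hR5
  have hclose : ∀ x, D.f x < R5 → x ∈ V ∧ q x / c ∈ Complex.slitPlane := by
    intro x hx
    have h1 := hlim x (hx.le.trans (min_le_left _ _))
    have h2 := hR4 (D.f x) (hx.le.trans (min_le_right _ _))
    obtain ⟨h3, h4⟩ := hR3' x (hx.le.trans (min_le_left _ _))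
    refine ⟨hR1V x h4, ?_⟩
    left
    have h5 : ‖q x / c - 1‖ < 1 := by
      have h6 : q x / c - 1 = (q x - c) / c := by field_simp
      rw [h6, norm_div, div_lt_one (norm_pos_iff.2 hc0)]
      have := norm_pos_iff.2 hc0
      linarith
    have h7 := (Complex.abs_re_le_norm (q x / c - 1)).trans_lt h5
    rw [Complex.sub_re, Complex.one_re, abs_lt] at h7
    linarith
  obtain ⟨c₀, hc₀⟩ := IsAlgClosed.exists_pow_nat_eq c hm
  have hc₀0 : c₀ ≠ 0 := by
    rintro rfl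
    rw [zero_pow hm.ne'] at hc₀
    exact hc0 hc₀.symm
  set ρ : Cov O.B.hh → ℂ := fun x => c₀ * Complex.exp (Complex.log (q x / c) / m) with hρ
  have hρ0 : ∀ x, ρ x ≠ 0 := fun x => mul_ne_zero hc₀0 (Complex.exp_ne_zero _)
  have hρm : ∀ x, D.f x < R5 → ρ x ^ m = q x := by
    intro x hx
    have h1 : q x / c ≠ 0 := Complex.slitPlane_ne_zero (hclose x hx).2
    rw [hρ]
    simp only
    rw [mul_pow, hc₀, ← Complex.exp_nat_mul, mul_div_cancel₀ _ hm', Complex.exp_log h1,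
      mul_div_cancel₀ _ hc0]
  have hρh : ∀ x, D.f x < R5 → HolAt 0 ρ x := by
    intro x hx
    have han : AnalyticAt ℂ (fun t : ℂ => c₀ * Complex.exp (Complex.log (t / c) / m)) (q x) := by
      have h1 : AnalyticAt ℂ (fun t : ℂ => t / c) (q x) := analyticAt_id.div analyticAt_const hc0
      have h2 : AnalyticAt ℂ (fun t : ℂ => Complex.log (t / c)) (q x) :=
        h1.clog (hclose x hx).2
      exact analyticAt_const.mul ((h2.div analyticAt_const hm').cexp)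
    have h3 := H406.holAt_comp (hq x (hclose x hx).1) han
    exact h3
  have hsec' := hsec O b
  have hl : ∀ x, D.f x < R5 → FrameAt (O.bL b) (O.ba b) (fun y => (ρ y)⁻¹ • g y) x := by
    intro x hx
    exact (hg x (hclose x hx).1.1).smul (holAt_inv (hρh x hx) (hρ0 x)) (inv_ne_zero (hρ0 x))
  refine ⟨R5, fun y => (ρ y)⁻¹ • g y, fun p hp => (hclose p hp).1.2,
    fun p hp => (hl p hp).self_of_nhds.1.continuousAt, fun p hp => ⟨_, hl p hp, rfl, ?_⟩⟩
  have hev : ∀ᶠ y in 𝓝 p, D.f y < R5 := lt_nhds D hp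
  filter_upwards [hev] with y hy
  have h1 : cof (fun y => (ρ y)⁻¹ • g y) (O.bα b) y = F y * ρ y := by
    refine cof_eq (f := fun y => (ρ y)⁻¹ • g y) (s := O.bα b) (y := y) (hl y hy).ne ?_
    rw [smul_smul, mul_assoc, mul_inv_cancel₀ (hρ0 y), mul_one]
    exact hgF y (hclose y hy).1.1
  rw [h1, mul_pow, hρm y hy, mul_one, mul_comm]
  exact hqA y (hclose y hy).1

/-- a positive continuous function is bounded above and below on a compact set -/
theorem exists_bounds {M : Type*} [TopologicalSpace M] {Q : Set M} (hQ : IsCompact Q) {w : M → ℝ}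
    (hw : ContinuousOn w Q) (hw0 : ∀ p ∈ Q, 0 < w p) :
    ∃ K : ℝ, 1 ≤ K ∧ ∀ p ∈ Q, K⁻¹ ≤ w p ∧ w p ≤ K := by
  obtain ⟨K1, hK1⟩ := (hQ.image_of_continuousOn hw).bddAbove
  obtain ⟨K2, hK2⟩ := (hQ.image_of_continuousOn (hw.inv₀ fun p hp => (hw0 p hp).ne')).bddAbove
  refine ⟨max 1 (max K1 K2), le_max_left _ _, fun p hp => ⟨?_, ?_⟩⟩
  · have h1 : (w p)⁻¹ ≤ max 1 (max K1 K2) :=
      (hK2 ⟨p, hp, rfl⟩).trans ((le_max_right _ _).trans (le_max_right _ _))
    have h2 := inv_anti₀ (inv_pos.2 (hw0 p hp)) h1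
    rwa [inv_inv] at h2
  · exact (hK1 ⟨p, hp, rfl⟩).trans ((le_max_left _ _).trans (le_max_right _ _))

/-- **the root frame.** -/
theorem exists_root_frame_of [T2Space X] (hE : ExactFrames O) {i : ℤ} {m : ℕ} (hm : 0 < m)
    (h : ExFn Ch i (i + 1) m) :
    ∃ (N : Set (Cov O.B.hh)) (lam : Cov O.B.hh → EuclideanSpace ℂ (O.E (Ch.ord.symm (i + 1)).1).ι)
      (x : Cov O.B.hh → ℂ), IsOpen N ∧ (∃ R, ∀ p, O.B.D.f p ≤ R → p ∈ N) ∧
      (∃ T, ∀ p ∈ N, O.B.D.f p ≤ T) ∧ (∀ k ≤ i, (Ch.C k).image ⊆ N) ∧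
      (∀ p ∈ N, FrameAt (O.bL (Ch.ord.symm (i + 1))) (O.ba (Ch.ord.symm (i + 1))) lam p) ∧
      (∀ p ∈ N, O.bα (Ch.ord.symm (i + 1)) p = x p • lam p) ∧ (∀ p ∈ N, HolAt 0 x p) ∧
      ∃ K : ℝ, 0 < K ∧ ∀ p ∈ N, K⁻¹ ≤ ‖lam p‖ ∧ ‖lam p‖ ≤ K := by
  classical
  obtain ⟨U, A, w, hU, hUi, hUC, hA, hw, hw0, heq, hwB⟩ := h
  set b := Ch.ord.symm (i + 1) with hb
  set D := O.B.D with hD
  have hfc : Continuous D.f := continuous_f D
  have hs := hsec O b
  have hns : NormalSpace (Cov O.B.hh) := normalSpace D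
  have H : RootData (O.bL b) (O.ba b) (O.bα b) A (fun _ => 1) m U :=
    rootData_of_norm hs hU hm hA hw hw0 heq
  obtain ⟨R, l₀, hRU, hl₀c, hl₀⟩ := exists_inner_root Ch hE hm hU hUi hA hw hw0 heq hwB
  -- the curves near the inner end
  obtain ⟨j₁, hj₁⟩ := exists_low Ch R
  set j₀ := min j₁ i with hj₀
  have hlow : ∀ j ≤ j₀, ∀ x ∈ (Ch.C j).image, D.f x < R := fun j hj =>
    hj₁ j (hj.trans (min_le_left _ _))
  obtain ⟨T, hT⟩ := exists_bot Ch (j₀ + 1)
  set R5 : ℝ := min (R - 1) (T - 1) with hR5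
  set Y : Set (Cov O.B.hh) := {p | D.f p ≤ R5} ∪ ⋃ j ∈ Iic j₀, (Ch.C j).image with hY
  have hYc : IsClosed Y := (isClosed_le hfc continuous_const).union (Ch.isClosed_union _)
  have hYR : ∀ p ∈ Y, D.f p < R := by
    rintro p (hp | hp)
    · have h1 : D.f p ≤ R5 := hp
      have h2 := min_le_left (R - 1) (T - 1)
      linarith
    · obtain ⟨j, hj, hpj⟩ := mem_iUnion₂.1 hp
      exact hlow j hj p hpj
  have hj₀i : j₀ ≤ i := min_le_right _ _
  obtain ⟨N₀, l, hYN, hφN, hN₀U, hRF, -, -⟩ := H.exists_root hYc (fun p hp => hRU p (hYR p hp))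
    (l₀ := l₀) (fun p hp => (hl₀c p (hYR p hp)).continuousWithinAt)
    (fun p hp => hl₀ p (hYR p hp)) (fun t => Ch.C (j₀ + 1 + t)) (i - j₀).toNat
    (fun t ht => hUC _ (by
      have h1 : (t : ℤ) < i - j₀ := by
        have := Int.toNat_of_nonneg (show 0 ≤ i - j₀ by linarith)
        rw [← this]; exact_mod_cast ht
      linarith)) (by
      intro t ht
      obtain ⟨p, hp⟩ := Ch.inter (j₀ + 1 + t)
      have hsub : (Ch.C (j₀ + 1 + t)).image ∩ (Y ∪ ⋃ t' < t, (Ch.C (j₀ + 1 + (t' : ℕ))).image) ⊆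
          {p} := by
        rw [← hp]
        rintro x ⟨hx, hx'⟩
        refine ⟨hx, ?_⟩
        rcases hx' with (hx' | hx') | hx'
        · exfalso
          have h1 : D.f x ≤ R5 := hx'
          have h2 := min_le_right (R - 1) (T - 1)
          have h3 := hT (j₀ + 1 + t) (by
            have : (0 : ℤ) ≤ t := Int.natCast_nonneg t
            linarith) x hx
          linarith
        · obtain ⟨j, hj, hxj⟩ := mem_iUnion₂.1 hx'
          have hj' : j ≤ j₀ := hj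
          refine mem_iUnion₂.2 ⟨j, ?_, hxj⟩
          have : (0 : ℤ) ≤ t := Int.natCast_nonneg t
          exact mem_Iio.2 (by linarith)
        · obtain ⟨t', ht', hxt⟩ := mem_iUnion₂.1 hx'
          refine mem_iUnion₂.2 ⟨j₀ + 1 + t', ?_, hxt⟩
          have : (t' : ℤ) < t := by exact_mod_cast ht'
          exact mem_Iio.2 (by linarith)
      exact Set.subsingleton_singleton.anti hsub)
  have hCN : ∀ k ≤ i, (Ch.C k).image ⊆ N₀ := by
    intro k hk
    rcases le_or_gt k j₀ with h1 | h1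
    · exact (subset_iUnion₂ (s := fun j (_ : j ∈ Iic j₀) => (Ch.C j).image) k h1).trans
        (subset_union_right.trans hYN)
    · have h2 := hφN (k - (j₀ + 1)).toNat (by
        have h3 := Int.toNat_of_nonneg (show 0 ≤ k - (j₀ + 1) by linarith)
        have h4 := Int.toNat_of_nonneg (show 0 ≤ i - j₀ by linarith)
        have h5 : ((k - (j₀ + 1)).toNat : ℤ) < (i - j₀).toNat := by rw [h3, h4]; linarith
        exact_mod_cast h5)
      have h3 := Int.toNat_of_nonneg (show 0 ≤ k - (j₀ + 1) by linarith)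
      have h4 : j₀ + 1 + ((k - (j₀ + 1)).toNat : ℤ) = k := by rw [h3]; ring
      rw [h4] at h2
      exact h2
  -- bounds
  have hnorm := norm_frame hs hRF (hw.mono hN₀U) (fun p hp => heq p (hN₀U hp))
  obtain ⟨K3, R6, hK3, hK3w⟩ := hwB
  obtain ⟨T', hT'⟩ := exists_top Ch i
  set Q : Set (Cov O.B.hh) := (⋃ j ∈ Iic i, (Ch.C j).image) ∩ D.f ⁻¹' Icc R6 T' with hQ
  have hQc : IsCompact Q := (D.f_proper R6 T').inter_left (Ch.isClosed_union _)
  have hQU : Q ⊆ U := by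
    rintro p ⟨hp, -⟩
    obtain ⟨j, hj, hpj⟩ := mem_iUnion₂.1 hp
    exact hUC j hj hpj
  obtain ⟨K4, hK4, hK4w⟩ := exists_bounds hQc (hw.mono hQU) fun p hp => hw0 p (hQU hp)
  set K : ℝ := max K3 K4 + 1 with hK
  have hK1 : 1 < K := by
    have := le_max_right K3 K4
    linarith
  have hK0 : 0 < K := by linarith
  have hin : ∀ {K' t : ℝ}, 0 < K' → K' < K → K'⁻¹ ≤ t → t ≤ K' → K⁻¹ < t ∧ t < K := by
    intro K' t h1 h2 h3 h4
    exact ⟨(inv_strictAnti₀ h1 h2).trans_le h3, h4.trans_lt h2⟩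
  have hwK : ∀ p, (D.f p ≤ R6 ∨ p ∈ Q) → K⁻¹ < w p ∧ w p < K := by
    rintro p (hp | hp)
    · exact hin hK3 (by have := le_max_left K3 K4; linarith) (hK3w p hp).1 (hK3w p hp).2
    · exact hin (by linarith) (by have := le_max_right K3 K4; linarith) (hK4w p hp).1
        (hK4w p hp).2
  set N : Set (Cov O.B.hh) := (N₀ ∩ w ⁻¹' Ioo K⁻¹ K) ∩ {p | D.f p < T' + 1} with hN
  have hNo : IsOpen N := ((hw.mono hN₀U).isOpen_inter_preimage hRF.open_N isOpen_Ioo).inter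
    (isOpen_lt hfc continuous_const)
  refine ⟨N, l, cof l (O.bα b), hNo, ⟨min (min R5 R6) T', fun p hp => ?_⟩,
    ⟨T' + 1, fun p hp => le_of_lt hp.2⟩, fun k hk p hp => ?_, fun p hp => hRF.frame p hp.1.1,
    fun p hp => hRF.coef p hp.1.1, fun p hp => hRF.hol p hp.1.1, K, hK0, fun p hp => ?_⟩
  · have h1 : D.f p ≤ R5 := hp.trans ((min_le_left _ _).trans (min_le_left _ _))
    have h2 : D.f p ≤ R6 := hp.trans ((min_le_left _ _).trans (min_le_right _ _))
    have h3 : D.f p ≤ T' := hp.trans (min_le_right _ _)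
    refine ⟨⟨hYN (Or.inl h1), hwK p (Or.inl h2)⟩, ?_⟩
    show D.f p < T' + 1
    linarith
  · have h3 := hT' k hk p hp
    refine ⟨⟨hCN k hk hp, hwK p ?_⟩, ?_⟩
    · rcases le_total (D.f p) R6 with h4 | h4
      · exact Or.inl h4
      · exact Or.inr ⟨mem_iUnion₂.2 ⟨k, hk, hp⟩, h4, h3⟩
    · show D.f p < T' + 1
      linarith
  · have h1 := hnorm p hp.1.1
    obtain ⟨h2, h3⟩ := hp.1.2
    have h2' : K⁻¹ < w p := h2
    have h3' : w p < K := h3
    have hKi : 0 < K⁻¹ := inv_pos.2 hK0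
    have hwp : 0 < w p := hKi.trans h2'
    have h4 : (‖l p‖ ^ 2) ^ m = (w p)⁻¹ := eq_inv_of_mul_eq_one_left h1
    have h5 : (w p)⁻¹ < K := by
      have := inv_strictAnti₀ hKi h2'
      rwa [inv_inv] at this
    have h6 : K⁻¹ < (w p)⁻¹ := inv_strictAnti₀ hwp h3'
    have hl0 := norm_nonneg (l p)
    constructor
    · by_contra h7
      push Not at h7
      have h8 : K⁻¹ ≤ 1 := inv_le_one_of_one_le₀ hK1.le
      have h9 : ‖l p‖ ^ 2 ≤ ‖l p‖ := by nlinarith
      have h10 : (‖l p‖ ^ 2) ^ m ≤ ‖l p‖ ^ 2 :=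
        pow_le_of_le_one (sq_nonneg _) (by nlinarith) hm.ne'
      linarith
    · by_contra h7
      push Not at h7
      have h9 : ‖l p‖ ≤ ‖l p‖ ^ 2 := by nlinarith
      have h10 : ‖l p‖ ^ 2 ≤ (‖l p‖ ^ 2) ^ m := le_self_pow₀ (by nlinarith) hm.ne'
      linarith

/-- **GS-ROOT-IN.** For some `i`: an open neighbourhood `N` of `⋃ k ≤ i, C k` and of the inner end,
a holomorphic frame `lam` of `E_{i+1}` on `N`, bounded above and below, and `x` holomorphic with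
`α_{i+1} = x • lam`. -/
theorem exists_root_frame [T2Space X] (hE : ExactFrames O) : ∃ i : ℤ,
    ∃ (N : Set (Cov O.B.hh)) (lam : Cov O.B.hh → EuclideanSpace ℂ (O.E (Ch.ord.symm (i + 1)).1).ι)
      (x : Cov O.B.hh → ℂ), IsOpen N ∧ (∃ R, ∀ p, O.B.D.f p ≤ R → p ∈ N) ∧
      (∃ T, ∀ p ∈ N, O.B.D.f p ≤ T) ∧ (∀ k ≤ i, (Ch.C k).image ⊆ N) ∧
      (∀ p ∈ N, FrameAt (O.bL (Ch.ord.symm (i + 1))) (O.ba (Ch.ord.symm (i + 1))) lam p) ∧
      (∀ p ∈ N, O.bα (Ch.ord.symm (i + 1)) p = x p • lam p) ∧ (∀ p ∈ N, HolAt 0 x p) ∧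
      ∃ K : ℝ, 0 < K ∧ ∀ p ∈ N, K⁻¹ ≤ ‖lam p‖ ∧ ‖lam p‖ ≤ K := by
  obtain ⟨i, m, hm, h⟩ := exists_exFn Ch hE
  exact ⟨i, exists_root_frame_of Ch hE hm h⟩

end Vale.Agent.P267.H406
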